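import Vale.Agent.P095.All.FA.Defs

/-!
# P095, traces to states: multipliers of `her A ω` given by elements of the ultrapower

`Acts M x` says that `M` multiplies by `x`. The norm of such `M` is read off on the copy of `A`,
since an approximate unit of `A` is one of `her A ω`.
-/

namespace Vale.Agent.P095.All.TraceDim

open Filter Topology Vale.Agent.P101.KR
open scoped MultiplierAlgebra CStarAlgebra

noncomputable section

variable {A : Type} [NonUnitalCStarAlgebra A] {ω : Ultrafilter ℕ}

/-- `M` multiplies by `x`. -/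
def Acts (M : 𝓜(ℂ, her A ω)) (x : AOmega (Unitization ℂ A) ω) : Prop :=
  ∀ y, (M.fst y : AOmega (Unitization ℂ A) ω) = x * y ∧
    (M.snd y : AOmega (Unitization ℂ A) ω) = y * x

theorem acts_rep (z : CentralAlgebra ω (Unitization ℂ A)) : Acts (rep A ω z) z.1 :=
  fun _ => ⟨rfl, rfl⟩

theorem acts_proj (z : CentralAlgebra ω (Unitization ℂ A)) :
    Acts (proj A ω z : 𝓜(ℂ, her A ω)) z.1 := fun _ => ⟨rfl, rfl⟩

theorem Acts.add {M N : 𝓜(ℂ, her A ω)} {x y : AOmega (Unitization ℂ A) ω} (h : Acts M x)
    (h' : Acts N y) : Acts (M + N) (x + y) := fun w => by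
  simp [(h w).1, (h w).2, (h' w).1, (h' w).2, add_mul, mul_add]

theorem Acts.sub {M N : 𝓜(ℂ, her A ω)} {x y : AOmega (Unitization ℂ A) ω} (h : Acts M x)
    (h' : Acts N y) : Acts (M - N) (x - y) := fun w => by
  simp [(h w).1, (h w).2, (h' w).1, (h' w).2, sub_mul, mul_sub]

theorem Acts.mul {M N : 𝓜(ℂ, her A ω)} {x y : AOmega (Unitization ℂ A) ω} (h : Acts M x)
    (h' : Acts N y) : Acts (M * N) (x * y) := fun w => by
  refine ⟨?_, ?_⟩
  · simp [(h _).1, (h' w).1, mul_assoc]
  · simp [(h' _).2, (h w).2, mul_assoc]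

theorem Acts.star {M : 𝓜(ℂ, her A ω)} {x : AOmega (Unitization ℂ A) ω} (h : Acts M x) :
    Acts (Star.star M) (Star.star x) := fun w => by
  simp [(h (Star.star w)).1, (h (Star.star w)).2]

theorem acts_one : Acts (1 : 𝓜(ℂ, her A ω)) 1 := fun w => by simp

theorem acts_zero : Acts (0 : 𝓜(ℂ, her A ω)) 0 := fun w => by simp

theorem Acts.smul {M : 𝓜(ℂ, her A ω)} {x : AOmega (Unitization ℂ A) ω} (h : Acts M x) (c : ℂ) :
    Acts (c • M) (c • x) := fun w => by
  simp [(h w).1, (h w).2]

theorem acts_sum {ι : Type*} (s : Finset ι) {M : ι → 𝓜(ℂ, her A ω)}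
    {x : ι → AOmega (Unitization ℂ A) ω} (h : ∀ i ∈ s, Acts (M i) (x i)) :
    Acts (∑ i ∈ s, M i) (∑ i ∈ s, x i) := by
  classical
  induction s using Finset.induction_on with
  | empty => simpa using acts_zero
  | insert a s ha ih =>
    rw [Finset.sum_insert ha, Finset.sum_insert ha]
    exact (h a (by simp)).add (ih fun i hi => h i (by simp [hi]))

section Unit

variable [PartialOrder A] [StarOrderedRing A]

theorem tendsto_emb_mul (a : A) :
    Tendsto (fun e => embA A ω e * embA A ω a) (CStarAlgebra.approximateUnit A) (𝓝 (embA A ω a)) ∧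
    Tendsto (fun e => embA A ω a * embA A ω e) (CStarAlgebra.approximateUnit A)
      (𝓝 (embA A ω a)) := by
  have hc : Continuous (embA A ω) := AddMonoidHomClass.continuous_of_bound (embA A ω) 1 fun x => by
    rw [one_mul]; exact NonUnitalStarAlgHom.norm_apply_le _ x
  constructor
  · refine ((hc.tendsto a).comp ((CStarAlgebra.increasingApproximateUnit A).tendsto_mul_right a))
      |>.congr fun e => map_mul (embA A ω) e a
  · refine ((hc.tendsto a).comp ((CStarAlgebra.increasingApproximateUnit A).tendsto_mul_left a))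
      |>.congr fun e => map_mul (embA A ω) a e

theorem embA_mem_her (a : A) : embA A ω a ∈ her A ω := by
  set l := CStarAlgebra.approximateUnit A
  have h1 := (tendsto_emb_mul (ω := ω) a).1
  have key : ∀ e : A, embA A ω e * embA A ω a ∈ her A ω := by
    intro e
    have hcl : IsClosed (her A ω : Set (AOmega (Unitization ℂ A) ω)) := isClosed_her A ω
    have h2 : Tendsto (fun e' => embA A ω e * embA A ω a * embA A ω e') l
        (𝓝 (embA A ω e * embA A ω a)) := by
      simp only [mul_assoc]
      exact (tendsto_emb_mul (ω := ω) a).2.const_mul _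
    refine hcl.mem_of_tendsto h2 (Eventually.of_forall fun e' => ?_)
    exact NonUnitalStarSubalgebra.le_topologicalClosure _
      (NonUnitalStarAlgebra.subset_adjoin ℂ _ ⟨(e, embA A ω a, e'), rfl⟩)
  exact (isClosed_her A ω).mem_of_tendsto h1 (Eventually.of_forall key)

/-- An approximate unit of `A` is one of `her A ω`. -/
theorem tendsto_unit_mul {y : AOmega (Unitization ℂ A) ω} (hy : y ∈ her A ω) :
    Tendsto (fun e => embA A ω e * y) (CStarAlgebra.approximateUnit A) (𝓝 y) ∧
    Tendsto (fun e => y * embA A ω e) (CStarAlgebra.approximateUnit A) (𝓝 y) := by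
  set l := CStarAlgebra.approximateUnit A
  set P : AOmega (Unitization ℂ A) ω → Prop := fun y =>
    Tendsto (fun e => embA A ω e * y) l (𝓝 y) ∧ Tendsto (fun e => y * embA A ω e) l (𝓝 y)
  have hgen : ∀ z ∈ NonUnitalStarAlgebra.adjoin ℂ (herGen A ω), P z := by
    intro z hz
    induction hz using NonUnitalStarAlgebra.adjoin_induction with
    | mem z hz =>
      obtain ⟨⟨a, w, b⟩, rfl⟩ := hz
      refine ⟨?_, ?_⟩
      · simp only [← mul_assoc]
        exact (((tendsto_emb_mul (ω := ω) a).1).mul_const w).mul_const _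
      · simp only [mul_assoc]
        exact (((tendsto_emb_mul (ω := ω) b).2).const_mul w).const_mul _
    | add p q _ _ hp hq =>
      exact ⟨by simpa [mul_add] using hp.1.add hq.1, by simpa [add_mul] using hp.2.add hq.2⟩
    | zero => exact ⟨by simp, by simp⟩
    | mul p q _ _ hp hq =>
      refine ⟨?_, ?_⟩
      · simp only [← mul_assoc]; exact hp.1.mul_const q
      · simp only [mul_assoc]; exact hq.2.const_mul p
    | smul r p _ hp =>
      exact ⟨by simpa [mul_smul_comm] using hp.1.const_smul r,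
        by simpa [smul_mul_assoc] using hp.2.const_smul r⟩
    | star p _ hp =>
      have hs := (CStarAlgebra.increasingApproximateUnit A).eventually_star_eq
      refine ⟨?_, ?_⟩
      · refine ((continuous_star.tendsto _).comp hp.2).congr' ?_
        filter_upwards [hs] with e he
        simp [← map_star, he]
      · refine ((continuous_star.tendsto _).comp hp.1).congr' ?_
        filter_upwards [hs] with e he
        simp [← map_star, he]
  have hy' : y ∈ closure (NonUnitalStarAlgebra.adjoin ℂ (herGen A ω) :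
      Set (AOmega (Unitization ℂ A) ω)) := hy
  have hn : ∀ᶠ e in l, ‖embA A ω e‖ ≤ 1 :=
    (CStarAlgebra.increasingApproximateUnit A).eventually_norm.mono fun e he =>
      (NonUnitalStarAlgHom.norm_apply_le _ e).trans he
  refine ⟨?_, ?_⟩ <;> refine Metric.tendsto_nhds.2 fun ε hε => ?_ <;>
    obtain ⟨z, hz, hzy⟩ := Metric.mem_closure_iff.1 hy' (ε / 4) (by positivity)
  · filter_upwards [Metric.tendsto_nhds.1 (hgen z hz).1 (ε / 4) (by positivity), hn] with e he hen
    rw [dist_eq_norm] at he hzy ⊢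
    have e1 : embA A ω e * y - y = embA A ω e * (y - z) + (embA A ω e * z - z) - (y - z) := by
      noncomm_ring
    rw [e1]
    have h2 := (norm_mul_le (embA A ω e) (y - z)).trans
      (mul_le_of_le_one_left (norm_nonneg _) hen)
    calc _ ≤ ‖embA A ω e * (y - z)‖ + ‖embA A ω e * z - z‖ + ‖y - z‖ :=
          (norm_sub_le _ _).trans (add_le_add (norm_add_le _ _) le_rfl)
      _ < ε := by linarith
  · filter_upwards [Metric.tendsto_nhds.1 (hgen z hz).2 (ε / 4) (by positivity), hn] with e he hen
    rw [dist_eq_norm] at he hzy ⊢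
    have e1 : y * embA A ω e - y = (y - z) * embA A ω e + (z * embA A ω e - z) - (y - z) := by
      noncomm_ring
    rw [e1]
    have h2 := (norm_mul_le (y - z) (embA A ω e)).trans
      (mul_le_of_le_one_right (norm_nonneg _) hen)
    calc _ ≤ ‖(y - z) * embA A ω e‖ + ‖z * embA A ω e - z‖ + ‖y - z‖ :=
          (norm_sub_le _ _).trans (add_le_add (norm_add_le _ _) le_rfl)
      _ < ε := by linarith

/-- The norm of a multiplier is read off on `A`. -/
theorem Acts.norm_le {M : 𝓜(ℂ, her A ω)} {x : AOmega (Unitization ℂ A) ω} (h : Acts M x)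
    {β : ℝ} (hβ : 0 ≤ β) (hx : ∀ a : A, ‖x * embA A ω a‖ ≤ β * ‖a‖) : ‖M‖ ≤ β := by
  rw [← DoubleCentralizer.norm_fst]
  refine ContinuousLinearMap.opNorm_le_bound _ hβ fun y => ?_
  show ‖(M.fst y : AOmega (Unitization ℂ A) ω)‖ ≤ β * ‖(y : AOmega (Unitization ℂ A) ω)‖
  rw [(h y).1]
  have hlim : Tendsto (fun e => ‖x * embA A ω e * (y : AOmega (Unitization ℂ A) ω)‖)
      (CStarAlgebra.approximateUnit A) (𝓝 ‖x * (y : AOmega (Unitization ℂ A) ω)‖) := by
    simp only [mul_assoc]
    exact ((tendsto_unit_mul y.2).1.const_mul x).norm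
  refine le_of_tendsto hlim ?_
  filter_upwards [(CStarAlgebra.increasingApproximateUnit A).eventually_norm] with e he
  refine (norm_mul_le _ _).trans (mul_le_mul_of_nonneg_right ?_ (norm_nonneg _))
  exact (hx e).trans (mul_le_of_le_one_right hβ he)

/-- Conversely. -/
theorem Acts.norm_mul_le {M : 𝓜(ℂ, her A ω)} {x : AOmega (Unitization ℂ A) ω} (h : Acts M x)
    (a : A) : ‖x * embA A ω a‖ ≤ ‖M‖ * ‖a‖ := by
  have h1 : ‖(M.fst ⟨embA A ω a, embA_mem_her a⟩ : AOmega (Unitization ℂ A) ω)‖
      ≤ ‖M.fst‖ * ‖embA A ω a‖ := M.fst.le_opNorm ⟨embA A ω a, embA_mem_her a⟩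
  rw [(h _).1, DoubleCentralizer.norm_fst] at h1
  exact h1.trans (mul_le_mul_of_nonneg_left (NonUnitalStarAlgHom.norm_apply_le _ a) (norm_nonneg M))

/-- `A` among the multipliers. -/
def inA : A →⋆ₙₐ[ℂ] 𝓜(ℂ, her A ω) where
  toFun a := ((⟨embA A ω a, embA_mem_her a⟩ : her A ω) : 𝓜(ℂ, her A ω))
  map_smul' r a := by
    refine toMult_ext A ω ?_ ?_ <;> intro y <;> simp [DoubleCentralizer.coe_fst, DoubleCentralizer.coe_snd]
  map_zero' := by
    refine toMult_ext A ω ?_ ?_ <;> intro y <;> simp [DoubleCentralizer.coe_fst, DoubleCentralizer.coe_snd]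
  map_add' a b := by
    refine toMult_ext A ω ?_ ?_ <;> intro y <;>
      simp [DoubleCentralizer.coe_fst, DoubleCentralizer.coe_snd, add_mul, mul_add]
  map_mul' a b := by
    refine toMult_ext A ω ?_ ?_ <;> intro y <;>
      simp [DoubleCentralizer.coe_fst, DoubleCentralizer.coe_snd, mul_assoc]
  map_star' a := by
    refine toMult_ext A ω ?_ ?_ <;> intro y <;>
      simp [DoubleCentralizer.coe_fst, DoubleCentralizer.coe_snd, map_star]

theorem acts_inA (a : A) : Acts (inA (ω := ω) a) (embA A ω a) := fun y =>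
  ⟨by simp [inA, DoubleCentralizer.coe_fst], by simp [inA, DoubleCentralizer.coe_snd]⟩

end Unit

end

end Vale.Agent.P095.All.TraceDim
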