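import Vale.Agent.P095.All.Defs
import Vale.Agent.P095.Amen.Compare.Basic

/-!
# P095, traces to states: the lemma of Cuntz and Pedersen

If every tracial state gives at most `ε` to a positive `z`, then `z` is, up to `η`, a finite sum
`∑ c* c` with `‖∑ c c*‖ ≤ ε + η`.
-/

namespace Vale.Agent.P095.All.TraceDim

open scoped CStarAlgebra
open Vale.Agent.P101.KR Vale.Agent.P095.Amen

noncomputable section

variable {B : Type*} [CStarAlgebra B] [PartialOrder B] [StarOrderedRing B]

/-- `w` lies, up to any `η`, below a sum `∑ c* c` with `∑ c c*` at most `r`. -/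
def Bd (w : B) (r : ℝ) : Prop :=
  ∀ η : ℝ, 0 < η → ∃ (n : ℕ) (c : Fin n → B),
    w ≤ ∑ i, star (c i) * c i + η • (1 : B) ∧ ‖∑ i, c i * star (c i)‖ ≤ r + η

theorem Bd.mono {w w' : B} {r : ℝ} (h : Bd w r) (hw : w' ≤ w) : Bd w' r := fun η hη => by
  obtain ⟨n, c, h1, h2⟩ := h η hη
  exact ⟨n, c, hw.trans h1, h2⟩

theorem bd_of_nonneg {w : B} (hw : 0 ≤ w) {r : ℝ} (hr : ‖w‖ ≤ r) : Bd w r := fun η hη => by
  refine ⟨1, fun _ => CFC.sqrt w, ?_, ?_⟩
  · simp [(CFC.sqrt_nonneg w).isSelfAdjoint.star_eq, CFC.sqrt_mul_sqrt_self w hw, smul_nonneg hη.le]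
  · simp [(CFC.sqrt_nonneg w).isSelfAdjoint.star_eq, CFC.sqrt_mul_sqrt_self w hw]
    linarith

theorem Bd.add {w w' : B} {r r' : ℝ} (h : Bd w r) (h' : Bd w' r') : Bd (w + w') (r + r') :=
  fun η hη => by
  obtain ⟨n, c, h1, h2⟩ := h (η / 2) (half_pos hη)
  obtain ⟨m, d, h3, h4⟩ := h' (η / 2) (half_pos hη)
  refine ⟨n + m, Fin.append c d, ?_, ?_⟩
  · rw [Fin.sum_univ_add]
    simp only [Fin.append_left, Fin.append_right]
    refine (add_le_add h1 h3).trans (le_of_eq ?_)
    module
  · rw [Fin.sum_univ_add]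
    simp only [Fin.append_left, Fin.append_right]
    exact (norm_add_le _ _).trans (by linarith)

theorem Bd.smul {w : B} {r : ℝ} (h : Bd w r) {t : ℝ} (ht : 0 < t) : Bd (t • w) (t * r) :=
  fun η hη => by
  obtain ⟨n, c, h1, h2⟩ := h (η / t) (div_pos hη ht)
  have hs : ∀ x y : B, Real.sqrt t • x * (Real.sqrt t • y) = t • (x * y) := fun x y => by
    rw [smul_mul_smul_comm, Real.mul_self_sqrt ht.le]
  refine ⟨n, fun i => Real.sqrt t • c i, ?_, ?_⟩
  · simp only [star_smul, star_trivial, hs, ← Finset.smul_sum]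
    refine (smul_le_smul_of_nonneg_left h1 ht.le).trans (le_of_eq ?_)
    rw [smul_add, smul_smul, mul_div_cancel₀ _ ht.ne']
  · simp only [star_smul, star_trivial, hs, ← Finset.smul_sum, norm_smul, Real.norm_eq_abs,
      abs_of_pos ht]
    calc t * ‖∑ i, c i * star (c i)‖ ≤ t * (r + η / t) := mul_le_mul_of_nonneg_left h2 ht.le
      _ = t * r + η := by field_simp

/-- `(W + δ)^{-1/2}`. -/
def rt (δ : ℝ) (W : B) : B := cfc (fun t : ℝ => (Real.sqrt (max t 0 + δ))⁻¹) W

theorem rt_props {W : B} (hW : 0 ≤ W) {δ : ℝ} (hδ : 0 < δ) :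
    star (rt δ W) = rt δ W ∧ rt δ W * W * rt δ W ≤ 1 ∧
      rt δ W * W * rt δ W = 1 - δ • (rt δ W * rt δ W) := by
  have hpos : ∀ t : ℝ, 0 < max t 0 + δ := fun t => add_pos_of_nonneg_of_pos (le_max_right _ _) hδ
  have hc : Continuous fun t : ℝ => (Real.sqrt (max t 0 + δ))⁻¹ :=
    (by fun_prop : Continuous fun t : ℝ => Real.sqrt (max t 0 + δ)).inv₀
      fun t => (Real.sqrt_pos.2 (hpos t)).ne'
  have hstar : star (rt δ W) = rt δ W := (cfc_predicate (R := ℝ) _ W).star_eq
  have heq : rt δ W * W * rt δ W = 1 - δ • (rt δ W * rt δ W) := by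
    set g : ℝ → ℝ := fun t => (Real.sqrt (max t 0 + δ))⁻¹
    have hid : cfc (fun t : ℝ => t) W = W := cfc_id' ℝ W hW.isSelfAdjoint
    conv_lhs => arg 1; arg 2; rw [← hid]
    rw [rt, ← cfc_mul _ _ W hc.continuousOn (by fun_prop),
      ← cfc_mul (fun x : ℝ => g x * x) _ W (by fun_prop) hc.continuousOn,
      ← cfc_mul _ _ W hc.continuousOn hc.continuousOn, ← cfc_smul δ (fun t => g t * g t) W
        (hc.mul hc).continuousOn, ← cfc_one ℝ W hW.isSelfAdjoint, ← cfc_sub _ _ W
        (by fun_prop) (by fun_prop)]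
    refine cfc_congr fun t ht => ?_
    have ht0 : 0 ≤ t := spectrum_nonneg_of_nonneg hW ht
    have hp : 0 < Real.sqrt (max t 0 + δ) := Real.sqrt_pos.2 (hpos t)
    have hsq : Real.sqrt (max t 0 + δ) * Real.sqrt (max t 0 + δ) = t + δ := by
      rw [Real.mul_self_sqrt (hpos t).le, max_eq_left ht0]
    simp only [g, smul_eq_mul, Pi.one_apply]
    field_simp
    linarith
  refine ⟨hstar, ?_, heq⟩
  rw [heq, sub_le_self_iff]
  refine smul_nonneg hδ.le ?_
  nth_rewrite 1 [← hstar]
  exact star_mul_self_nonneg _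

theorem conj_sum {n : ℕ} (c : Fin n → B) (g : B) :
    ∑ i, star (c i * g) * (c i * g) = star g * (∑ i, star (c i) * c i) * g := by
  simp only [Finset.mul_sum, Finset.sum_mul, star_mul, mul_assoc]

/-- The step: `x x*` may be replaced by `x* x`. -/
theorem Bd.swap {w x : B} {r : ℝ} (hw : 0 ≤ w) (h : Bd (w + x * star x) r) :
    Bd (w + star x * x) r := fun η hη => by
  set δ := η / 4
  have hδ : 0 < δ := by positivity
  obtain ⟨n, c, h1, h2⟩ := h δ hδ
  set W := w + x * star x
  have hW : 0 ≤ W := add_nonneg hw (mul_star_self_nonneg x)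
  obtain ⟨hg, hgW, hgeq⟩ := rt_props hW hδ
  set g := rt δ W
  set v := CFC.sqrt w
  have hv : star v = v := (CFC.sqrt_nonneg w).isSelfAdjoint.star_eq
  have hvv : v * v = w := CFC.sqrt_mul_sqrt_self w hw
  set u : Fin 2 → B := ![v, x]
  have hu : ∑ j, u j * star (u j) = W := by simp [u, hv, hvv, W]
  have hle : ∀ j, u j * star (u j) ≤ W := fun j => hu ▸
    Finset.single_le_sum (fun j _ => mul_star_self_nonneg (u j)) (Finset.mem_univ j)
  refine ⟨n + n, Fin.append (fun i => c i * g * v) (fun i => c i * g * x), ?_, ?_⟩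
  · -- below
    have key : ∀ j, star (u j) * u j ≤
        ∑ i, star (c i * g * u j) * (c i * g * u j) + (2 * δ) • (1 : B) := by
      intro j
      have hN : star (u j) * (g * g) * u j ≤ 1 := by
        have e1 : star (u j) * (g * g) * u j = star (g * u j) * (g * u j) := by
          rw [star_mul, hg]; simp only [mul_assoc]
        rw [e1]
        refine (CStarAlgebra.norm_le_one_iff_of_nonneg _ (star_mul_self_nonneg _)).1 ?_
        rw [CStarRing.norm_star_mul_self, ← CStarRing.norm_self_mul_star,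
          CStarAlgebra.norm_le_one_iff_of_nonneg _ (mul_star_self_nonneg _), star_mul, hg]
        calc g * u j * (star (u j) * g) = g * (u j * star (u j)) * g := by simp only [mul_assoc]
          _ ≤ g * W * g := by
            have := star_left_conjugate_le_conjugate (hle j) g
            rwa [hg] at this
          _ ≤ 1 := hgW
      have e2 : ∑ i, star (c i * g * u j) * (c i * g * u j)
          = star (g * u j) * (∑ i, star (c i) * c i) * (g * u j) := by
        rw [← conj_sum]; simp only [mul_assoc]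
      have e3 := star_left_conjugate_le_conjugate h1 (g * u j)
      have e6 : ∀ S : B, star (g * u j) * (S + δ • (1 : B)) * (g * u j)
          = star (g * u j) * S * (g * u j) + δ • (star (g * u j) * (g * u j)) := fun S => by
        rw [mul_add, add_mul, mul_smul_comm, smul_mul_assoc, mul_one]
      rw [e6] at e3
      have e4 : star (g * u j) * W * (g * u j) = star (u j) * u j
          - δ • (star (u j) * (g * g) * u j) := by
        rw [star_mul, hg, show star (u j) * g * W * (g * u j) = star (u j) * (g * W * g) * u j from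
          by simp only [mul_assoc], hgeq, mul_sub, sub_mul, mul_one, mul_smul_comm, smul_mul_assoc]
      have e5 : star (g * u j) * (g * u j) = star (u j) * (g * g) * u j := by
        rw [star_mul, hg]; simp only [mul_assoc]
      rw [e4, e5, ← e2, sub_le_iff_le_add] at e3
      refine e3.trans (le_trans (le_of_eq (add_assoc _ _ _)) (add_le_add le_rfl ?_))
      rw [← add_smul, two_mul]
      exact smul_le_smul_of_nonneg_left hN (by positivity)
    rw [Fin.sum_univ_add]
    simp only [Fin.append_left, Fin.append_right]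
    have k0 := key 0
    have k1 := key 1
    simp only [u, Matrix.cons_val_zero, Matrix.cons_val_one, hv, hvv] at k0 k1
    refine (add_le_add k0 k1).trans (le_of_eq ?_)
    rw [show η = 2 * δ + 2 * δ by simp only [δ]; ring, add_smul]
    abel
  · -- above
    rw [Fin.sum_univ_add]
    simp only [Fin.append_left, Fin.append_right, ← Finset.sum_add_distrib]
    have hb : ∀ i, c i * g * v * star (c i * g * v) + c i * g * x * star (c i * g * x)
        ≤ c i * star (c i) := fun i => by
      have := star_left_conjugate_le_conjugate hgW (star (c i))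
      rw [star_star, mul_one] at this
      refine le_of_eq_of_le ?_ this
      simp only [star_mul, hg, hv, W, mul_add, add_mul, ← hvv, mul_assoc]
    refine le_trans (CStarAlgebra.norm_le_norm_of_nonneg_of_le
      (Finset.sum_nonneg fun i _ => add_nonneg (mul_star_self_nonneg _) (mul_star_self_nonneg _))
      (Finset.sum_le_sum fun i _ => hb i)) (h2.trans ?_)
    simp only [δ]
    linarith

theorem Bd.swap_sum {r : ℝ} {k : ℕ} (x : Fin k → B) : ∀ {w : B}, 0 ≤ w →
    Bd (w + ∑ i, x i * star (x i)) r → Bd (w + ∑ i, star (x i) * x i) r := by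
  induction k with
  | zero => intro w _ h; simpa using h
  | succ k ih =>
    intro w hw h
    rw [Fin.sum_univ_succ, ← add_assoc] at h ⊢
    have h1 := ih (fun i => x i.succ) (add_nonneg hw (mul_star_self_nonneg (x 0))) h
    rw [add_right_comm] at h1 ⊢
    exact h1.swap (add_nonneg hw (Finset.sum_nonneg fun i _ => star_mul_self_nonneg _))

/-- The commutator sum of a family. -/
def com {k : ℕ} (x : Fin k → B) : B := ∑ i, (star (x i) * x i - x i * star (x i))

/-- If `z` plus a commutator sum is at most `e`, then `z` has the bound `e`. -/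
theorem bd_of_com {z : B} (hz : 0 ≤ z) {e : ℝ} (he : 0 ≤ e) {k : ℕ} (x : Fin k → B)
    (h : z + com x ≤ e • (1 : B)) : Bd z e := by
  set a := ∑ i, star (x i) * x i
  set b := ∑ i, x i * star (x i)
  have ha : 0 ≤ a := Finset.sum_nonneg fun i _ => star_mul_self_nonneg _
  have hab : z + a ≤ e • (1 : B) + b := by
    rw [com, Finset.sum_sub_distrib, add_sub, sub_le_iff_le_add] at h
    exact h
  have h1 : ‖e • (1 : B)‖ ≤ e := by
    refine (norm_smul_le _ _).trans ?_
    rw [Real.norm_eq_abs, abs_of_nonneg he]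
    exact mul_le_of_le_one_right he (by
      rcases subsingleton_or_nontrivial B with hB | hB
      · simp [Subsingleton.elim (1 : B) 0]
      · exact CStarRing.norm_one.le)
  have hit : ∀ m : ℕ, Bd (m • z + a) (m * e + ‖a‖) := by
    intro m
    induction m with
    | zero => simpa using bd_of_nonneg ha le_rfl
    | succ m ih =>
      have hw : 0 ≤ m • z + e • (1 : B) := add_nonneg (nsmul_nonneg hz m) (smul_nonneg he zero_le_one)
      refine Bd.mono (w := (m • z + e • (1 : B)) + b) ?_ ?_
      · refine Bd.swap_sum (fun i => star (x i)) hw ?_ |> (fun h => by simpa [b] using h)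
        simp only [star_star]
        rw [add_right_comm]
        convert ih.add (bd_of_nonneg (smul_nonneg he zero_le_one) h1) using 1
        push_cast
        ring
      · rw [succ_nsmul, add_assoc, add_assoc]
        exact add_le_add le_rfl hab
  intro η hη
  obtain ⟨m, hm⟩ := exists_nat_gt (‖a‖ / (η / 2))
  have hm0 : (0 : ℝ) < m := lt_of_le_of_lt (by positivity) hm
  have h2 : (1 / (m : ℝ)) * ‖a‖ ≤ η / 2 := by
    rw [div_lt_iff₀ (by positivity)] at hm
    rw [one_div, inv_mul_le_iff₀ hm0]
    exact hm.le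
  obtain ⟨n, c, h3, h4⟩ := ((hit m).smul (one_div_pos.2 hm0)) (η / 2) (half_pos hη)
  refine ⟨n, c, ?_, ?_⟩
  · refine le_trans ?_ (h3.trans (add_le_add le_rfl (smul_le_smul_of_nonneg_right (by linarith)
      zero_le_one)))
    rw [smul_add, ← Nat.cast_smul_eq_nsmul ℝ, smul_smul, one_div, inv_mul_cancel₀ hm0.ne', one_smul]
    exact le_add_of_nonneg_right (smul_nonneg (by positivity) ha)
  · refine h4.trans ?_
    rw [mul_add, ← mul_assoc, one_div, inv_mul_cancel₀ hm0.ne', one_mul, ← one_div]
    linarith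

/-- From a bound to a factorisation. -/
theorem factor_of_bd {z : B} (hz : 0 ≤ z) {e : ℝ} (h : Bd z e) {η : ℝ} (hη : 0 < η) :
    ∃ (n : ℕ) (c : Fin n → B), ‖∑ i, star (c i) * c i - z‖ ≤ η ∧
      ‖∑ i, c i * star (c i)‖ ≤ e + η := by
  obtain ⟨n, c, h1, h2⟩ := h (η / 2) (half_pos hη)
  set S := ∑ i, star (c i) * c i
  set W := S + (η / 2) • (1 : B)
  have hW : 0 ≤ W := hz.trans h1
  obtain ⟨hg, hgW, hgeq⟩ := rt_props hW (half_pos hη)
  set g := rt (η / 2) W
  set v := CFC.sqrt z
  have hv : star v = v := (CFC.sqrt_nonneg z).isSelfAdjoint.star_eq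
  have hvv : v * v = z := CFC.sqrt_mul_sqrt_self z hz
  have hgv : ‖g * v * star (g * v)‖ ≤ 1 := by
    rw [CStarAlgebra.norm_le_one_iff_of_nonneg _ (mul_star_self_nonneg _), star_mul, hg, hv]
    calc g * v * (v * g) = g * z * g := by rw [← hvv]; simp only [mul_assoc]
      _ ≤ g * W * g := by
        have := star_left_conjugate_le_conjugate h1 g
        rwa [hg] at this
      _ ≤ 1 := hgW
  refine ⟨n, fun i => c i * (g * v), ?_, ?_⟩
  · rw [conj_sum]
    have : star (g * v) * S * (g * v) - z = -η • (star (g * v) * (g * v)) := by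
      have hS : S = W - (η / 2) • (1 : B) := (add_sub_cancel_right _ _).symm
      rw [hS, star_mul, hg, hv, mul_sub, sub_mul, mul_smul_comm, smul_mul_assoc, mul_one,
        show v * g * W * (g * v) = v * (g * W * g) * v from by simp only [mul_assoc], hgeq,
        mul_sub, sub_mul, mul_one, hvv, mul_smul_comm, smul_mul_assoc]
      simp only [mul_assoc]
      module
    rw [this, norm_smul, CStarRing.norm_star_mul_self, ← CStarRing.norm_self_mul_star, norm_neg,
      Real.norm_eq_abs, abs_of_pos hη]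
    exact mul_le_of_le_one_right hη.le hgv
  · refine le_trans (CStarAlgebra.norm_le_norm_of_nonneg_of_le
      (Finset.sum_nonneg fun i _ => mul_star_self_nonneg _) (Finset.sum_le_sum fun i _ => ?_))
      (h2.trans (by linarith))
    have hgz : g * z * g ≤ 1 := by
      refine le_trans ?_ hgW
      have := star_left_conjugate_le_conjugate h1 g
      rwa [hg] at this
    have := star_left_conjugate_le_conjugate hgz (star (c i))
    rw [star_star, mul_one] at this
    refine le_of_eq_of_le ?_ this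
    simp only [star_mul, hg, hv, ← hvv, mul_assoc]

/-- Without a bound there is a trace above `e`: Hahn–Banach modulo commutator sums. -/
theorem exists_com {z : B} (hz : IsSelfAdjoint z) {e : ℝ}
    (h : ∀ τ : B →ₗ[ℂ] ℂ, τ 1 = 1 → (∀ x, 0 ≤ (τ (star x * x)).re) →
      (∀ x, (τ (star x * x)).im = 0) → (∀ x, ‖τ x‖ ≤ ‖x‖) → (∀ x y, τ (x * y) = τ (y * x)) →
      (τ z).re ≤ e)
    {e' : ℝ} (he : e < e') : ∃ (k : ℕ) (x : Fin k → B), z + com x ≤ e' • (1 : B) := by
  by_contra hno
  push_neg at hno
  set re : B → B := fun h => (1 / 2 : ℝ) • (h + star h)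
  have re_sa : ∀ {h : B}, IsSelfAdjoint h → re h = h := fun {h} hh => by
    simp only [re, hh.star_eq]; module
  have re_add : ∀ h h', re (h + h') = re h + re h' := fun h h' => by
    simp only [re, star_add]; module
  have re_smul : ∀ (t : ℝ) h, re (t • h) = t • re h := fun t h => by
    simp only [re, star_smul, star_trivial]; module
  have com_nil : com (fun i : Fin 0 => (0 : B)) = 0 := by simp [com]
  have com_smul : ∀ (t : ℝ) (_ : 0 ≤ t) {k : ℕ} (x : Fin k → B),
      com (fun i => Real.sqrt t • x i) = t • com x := fun t ht k x => by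
    simp only [com, star_smul, star_trivial, smul_mul_smul_comm, Real.mul_self_sqrt ht,
      ← smul_sub, Finset.smul_sum]
  -- no commutator sum is negative definite
  have hneg : ∀ (k : ℕ) (x : Fin k → B) (μ : ℝ), com x ≤ μ • (1 : B) → 0 ≤ μ := by
    intro k x μ hx
    by_contra hμ
    push_neg at hμ
    obtain ⟨t, ht, hte⟩ : ∃ t : ℝ, 0 ≤ t ∧ ‖z‖ + t * μ ≤ e' := by
      refine ⟨(|‖z‖ - e'|) / (-μ), by have := neg_pos.2 hμ; positivity, ?_⟩
      have h0 := le_abs_self (‖z‖ - e')
      have : |‖z‖ - e'| / -μ * μ = -|‖z‖ - e'| := by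
        rw [div_neg, neg_mul, div_mul_cancel₀ _ hμ.ne]
      linarith
    refine hno k (fun i => Real.sqrt t • x i) ?_
    rw [com_smul t ht]
    refine (add_le_add hz.le_algebraMap_norm_self (smul_le_smul_of_nonneg_left hx ht)).trans ?_
    rw [Algebra.algebraMap_eq_smul_one, smul_smul, ← add_smul]
    exact smul_le_smul_of_nonneg_right hte zero_le_one
  set L : B → Set ℝ := fun h => {l | ∃ (k : ℕ) (x : Fin k → B), re h + com x ≤ l • (1 : B)}
  have re_norm : ∀ h, ‖re h‖ ≤ ‖h‖ := fun h => by
    refine (norm_smul_le _ _).trans ?_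
    rw [Real.norm_eq_abs, abs_of_pos (by norm_num : (0 : ℝ) < 1 / 2)]
    have := norm_add_le h (star h)
    rw [norm_star] at this
    linarith
  have re_isSA : ∀ h, IsSelfAdjoint (re h) := fun h => (IsSelfAdjoint.all (1 / 2 : ℝ)).smul (IsSelfAdjoint.add_star_self h)
  have hle : ∀ h, ‖h‖ ∈ L h := fun h => by
    refine ⟨0, fun _ => 0, ?_⟩
    rw [com_nil, add_zero]
    refine (re_isSA h).le_algebraMap_norm_self.trans ?_
    rw [Algebra.algebraMap_eq_smul_one]
    exact smul_le_smul_of_nonneg_right (re_norm h) zero_le_one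
  have hbdd : ∀ h, BddBelow (L h) := fun h => ⟨-‖h‖, fun l hl => by
    obtain ⟨k, x, hx⟩ := hl
    have h1 : -(re h) ≤ ‖h‖ • (1 : B) := by
      refine (re_isSA h).neg.le_algebraMap_norm_self.trans ?_
      rw [Algebra.algebraMap_eq_smul_one, norm_neg]
      exact smul_le_smul_of_nonneg_right (re_norm h) zero_le_one
    have := hneg k x (l + ‖h‖) (by
      rw [add_smul]
      refine le_trans (le_of_eq ?_) (add_le_add hx h1)
      abel)
    linarith⟩
  set N : B → ℝ := fun h => sInf (L h)
  have N_le : ∀ {h l}, l ∈ L h → N h ≤ l := fun {h l} hl => csInf_le (hbdd h) hl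
  have N_hom : ∀ c : ℝ, 0 < c → ∀ x, N (c • x) = c * N x := by
    have aux : ∀ c : ℝ, 0 < c → ∀ x, N (c • x) ≤ c * N x := fun c hc x => by
      rw [← div_le_iff₀' hc]
      refine le_csInf ⟨_, hle x⟩ ?_
      rintro l ⟨k, y, hy⟩
      rw [div_le_iff₀' hc]
      refine N_le ⟨k, fun i => Real.sqrt c • y i, ?_⟩
      rw [com_smul c hc.le, re_smul, ← smul_add, ← smul_smul]
      exact smul_le_smul_of_nonneg_left hy hc.le
    intro c hc x
    refine le_antisymm (aux c hc x) ?_
    have := aux c⁻¹ (inv_pos.2 hc) (c • x)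
    rw [inv_smul_smul₀ hc.ne', le_inv_mul_iff₀ hc] at this
    exact this
  have N_add : ∀ x y, N (x + y) ≤ N x + N y := fun x y => by
    rw [← sub_le_iff_le_add]
    refine le_csInf ⟨_, hle x⟩ ?_
    rintro l ⟨k, a, ha⟩
    suffices N (x + y) - l ≤ N y by linarith
    refine le_csInf ⟨_, hle y⟩ ?_
    rintro l' ⟨k', b, hb⟩
    rw [sub_le_iff_le_add]
    refine N_le ⟨k + k', Fin.append a b, ?_⟩
    rw [re_add, com, Fin.sum_univ_add, add_smul]
    simp only [Fin.append_left, Fin.append_right]
    refine le_trans (le_of_eq ?_) ((add_le_add ha hb).trans (le_of_eq (add_comm _ _)))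
    simp only [com]
    abel
  have hz' : e' ≤ N z := le_csInf ⟨_, hle z⟩ fun l hl => by
    obtain ⟨k, x, hx⟩ := hl
    rw [re_sa hz] at hx
    by_contra hl'
    exact hno k x (hx.trans (smul_le_smul_of_nonneg_right (not_le.1 hl').le zero_le_one))
  have N0 : N 0 = 0 := by
    have := N_hom 2 two_pos 0
    rw [smul_zero] at this
    linarith
  set f : B →ₗ.[ℝ] ℝ := LinearPMap.mkSpanSingleton' z (N z) (fun c hc => by
    rcases eq_or_ne c 0 with rfl | hc0
    · simp
    · rw [(smul_eq_zero.1 hc).resolve_left hc0, N0, smul_zero])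
  obtain ⟨g, hg1, hg2⟩ := exists_extension_of_le_sublinear f N N_hom N_add (by
    rintro ⟨x, hx⟩
    obtain ⟨c, rfl⟩ := Submodule.mem_span_singleton.1 hx
    rw [LinearPMap.mkSpanSingleton'_apply, smul_eq_mul]
    show c * N z ≤ N (c • z)
    rcases lt_trichotomy c 0 with hc | rfl | hc
    · have h1 := N_add (c • z) ((-c) • z)
      rw [← add_smul, add_neg_cancel, zero_smul, N0, N_hom _ (neg_pos.2 hc)] at h1
      linarith
    · simp [N0]
    · exact (N_hom c hc z).ge)
  have hgz : g z = N z := by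
    have := hg1 ⟨z, Submodule.mem_span_singleton_self z⟩
    rw [this]
    exact LinearPMap.mkSpanSingleton'_apply_self _ _ _ _
  -- properties of g
  have g_le : ∀ {h : B}, IsSelfAdjoint h → ∀ {l : ℝ}, h ≤ l • (1 : B) → g h ≤ l := fun {h} hh {l} hl =>
    (hg2 h).trans (N_le ⟨0, fun _ => 0, by rwa [com_nil, add_zero, re_sa hh]⟩)
  have g_nonneg : ∀ x : B, 0 ≤ g (star x * x) := fun x => by
    have := g_le (IsSelfAdjoint.star_mul_self x).neg (l := 0) (by
      rw [zero_smul, neg_nonpos]; exact star_mul_self_nonneg x)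
    rw [map_neg] at this
    linarith
  have g_one : g 1 = 1 := by
    have h1 := g_le (IsSelfAdjoint.one B) (h := (1 : B)) (l := 1) (by rw [one_smul])
    have h2 := g_le (IsSelfAdjoint.one B).neg (h := -(1 : B)) (l := -1) (by rw [neg_smul, one_smul])
    rw [map_neg] at h2
    linarith
  have g_comm : ∀ x : B, g (star x * x) = g (x * star x) := by
    have aux : ∀ x : B, g (x * star x - star x * x) ≤ 0 := fun x =>
      (hg2 _).trans (N_le ⟨1, fun _ => x, by
        rw [re_sa ((IsSelfAdjoint.mul_star_self x).sub (IsSelfAdjoint.star_mul_self x))]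
        simp [com]⟩)
    intro x
    have h1 := aux x
    have h2 := aux (star x)
    rw [star_star] at h2
    rw [map_sub] at h1 h2
    linarith
  have g_abs : ∀ x : B, g x ≤ ‖x‖ := fun x => (hg2 x).trans (N_le (hle x))
  have g_skew : ∀ {x : B}, star x = -x → g x = 0 := fun {x} hx => by
    have hr : ∀ y : B, star y = -y → g y ≤ 0 := fun y hy =>
      (hg2 y).trans (N_le ⟨0, fun _ => 0, by simp [re, hy, com_nil]⟩)
    have h1 := hr x hx
    have h2 := hr (-x) (by rw [star_neg, hx])
    rw [map_neg] at h2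
    linarith
  set τ : B →ₗ[ℂ] ℂ := Module.Dual.extendRCLike (𝕜 := ℂ) g
  have τre : ∀ x, (τ x).re = g x := fun x => by
    rw [← RCLike.re_to_complex]; exact Module.Dual.re_extendRCLike_apply g x
  have τim : ∀ x, (τ x).im = -g (Complex.I • x) := fun x => by
    rw [← RCLike.im_to_complex]; exact Module.Dual.im_extendRCLike_apply (𝕜 := ℂ) g x
  have τim0 : ∀ {h : B}, IsSelfAdjoint h → (τ h).im = 0 := fun {h} hh => by
    rw [τim, g_skew (by rw [star_smul, hh.star_eq, Complex.star_def, Complex.conj_I, neg_smul]),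
      neg_zero]
  have hdiag : ∀ x, τ (star x * x) = τ (x * star x) := fun x => Complex.ext
    (by rw [τre, τre, g_comm]) (by rw [τim0 (IsSelfAdjoint.star_mul_self x),
      τim0 (IsSelfAdjoint.mul_star_self x)])
  have hpol : ∀ x y, τ (star x * y) = τ (y * star x) := fun x y => by
    have hx := hdiag x
    have hy := hdiag y
    have h1 := hdiag (x + y)
    have h2 := hdiag (x + Complex.I • y)
    simp only [star_add, star_smul, add_mul, mul_add, map_add, map_smul, smul_mul_assoc,
      mul_smul_comm, Complex.star_def, Complex.conj_I, neg_smul, neg_mul, mul_neg, map_neg, smul_eq_mul] at h1 h2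
    have e2 : Complex.I * (τ (star x * y) - τ (star y * x) + τ (x * star y) - τ (y * star x))
        = 0 := by
      linear_combination h2 - hx + Complex.I * Complex.I * hy
    have e3 := (mul_eq_zero.1 e2).resolve_left Complex.I_ne_zero
    linear_combination (1 / 2 : ℂ) * h1 - (1 / 2 : ℂ) * hx - (1 / 2 : ℂ) * hy + (1 / 2 : ℂ) * e3
  have := h τ
    (Complex.ext (by rw [τre, g_one, Complex.one_re])
      (by rw [τim0 (IsSelfAdjoint.one B), Complex.one_im]))
    (fun x => (τre _).symm ▸ g_nonneg x) (fun x => τim0 (IsSelfAdjoint.star_mul_self x))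
    (fun x => by
      have h1 := Module.Dual.norm_extendRCLike_apply_sq (𝕜 := ℂ) g x
      have h2 := g_abs ((starRingEnd ℂ) (τ x) • x)
      rw [norm_smul, RCLike.norm_conj] at h2
      rcases eq_or_lt_of_le (norm_nonneg (τ x)) with h3 | h3
      · rw [← h3]; exact norm_nonneg x
      · exact le_of_mul_le_mul_left (by rw [← sq]; exact h1.trans_le h2) h3)
    (fun x y => by simpa using hpol (star x) y)
  rw [τre, hgz] at this
  linarith

theorem spectrum_cl_nonneg {F : Type} [CStarAlgebra F] (s : Set F) (z : Cl s)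
    (hz : SqLe 0 (z : F)) : ∀ t ∈ spectrum ℝ z, 0 ≤ t := by
  letI := CStarAlgebra.spectralOrder F
  haveI := CStarAlgebra.spectralOrderedRing F
  intro t ht
  have hz0 : (0 : F) ≤ (z : F) := sqLe_iff.1 hz
  rw [← spectrum.algebraMap_mem_iff ℂ, StarSubalgebra.spectrum_eq (Cl s), spectrum.algebraMap_mem_iff] at ht
  exact spectrum_nonneg_of_nonneg hz0 ht

/-- The lemma of Cuntz and Pedersen, in `Cl s`. -/
theorem exists_factor {F : Type} [CStarAlgebra F] (s : Set F) (z : Cl s) (hz : SqLe 0 (z : F))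
    {ε : ℝ} (hε : 0 ≤ ε) (h : ∀ τ : Cl s →ₗ[ℂ] ℂ, IsTrace (Cl s) τ → (τ z).re ≤ ε)
    {η : ℝ} (hη : 0 < η) :
    ∃ (n : ℕ) (c : Fin n → F), (∀ i, c i ∈ Cl s) ∧ ‖∑ i, star (c i) * c i - (z : F)‖ ≤ η ∧
      ‖∑ i, c i * star (c i)‖ ≤ ε + η := by
  letI := CStarAlgebra.spectralOrder (Cl s)
  haveI := CStarAlgebra.spectralOrderedRing (Cl s)
  have hzsa : IsSelfAdjoint z := Subtype.ext (by
    obtain ⟨c, hc⟩ := hz
    rw [StarMemClass.coe_star]
    rw [sub_zero] at hc
    rw [hc, star_mul, star_star])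
  have hzB : 0 ≤ z := by
    rw [StarOrderedRing.nonneg_iff_spectrum_nonneg (R := ℝ) z]
    exact spectrum_cl_nonneg s z hz
  obtain ⟨k, x, hx⟩ := exists_com hzsa (e := ε) (e' := ε + η / 2)
    (fun τ h1 h2 h3 h4 h5 => h τ ⟨h1, h2, h3, h4, h5⟩) (by linarith)
  obtain ⟨n, c, h1, h2⟩ := factor_of_bd hzB (bd_of_com hzB (by linarith) x hx) (half_pos hη)
  refine ⟨n, fun i => (c i : F), fun i => (c i).2, ?_, ?_⟩
  · rw [show ∑ i, star (c i : F) * (c i : F) - (z : F)
        = ((∑ i, star (c i) * c i - z : Cl s) : F) by simp]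
    exact h1.trans (by linarith)
  · rw [show ∑ i, (c i : F) * star (c i : F) = ((∑ i, c i * star (c i) : Cl s) : F) by simp]
    exact h2.trans (by linarith)

end

end Vale.Agent.P095.All.TraceDim
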