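import Vale.Agent.P095.All.Defs
import Vale.Agent.P095.Amen.Compare.Basic

/-!
# P095, traces to states: counting with a dimension drop map

`M` orthogonal equivalent squares `Q r * Q r` below one, the complement `1 - ∑ Q r` below the first
one, and `W` carrying the bulk of `z` into the first one: then a state gives at most `2 / M` to
`(z - θ)₊`.
-/

namespace Vale.Agent.P095.All.TraceDim

open scoped CStarAlgebra
open Vale.Agent.P101.KR Vale.Agent.P095.Amen

noncomputable section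

variable {F : Type} [CStarAlgebra F] {q : Set F}

theorem count {M : ℕ} (hM : 0 < M) (r : Fin M → F) (X : Fin M → F) (v g W z : F)
    (hr : ∀ a, r a ∈ Cl q) (hX : ∀ a, X a ∈ Cl q) (hv : v ∈ Cl q) (hW : W ∈ Cl q)
    (hg : g ∈ Cl q) (hz : PosIn (Cl q) z) (hz1 : SqLe z 1)
    (horth : ∀ a b, a ≠ b → star (r a) * r a * (star (r b) * r b) = 0)
    (hXX : ∀ a, star (X a) * X a = star (r ⟨0, hM⟩) * r ⟨0, hM⟩ * (star (r ⟨0, hM⟩) * r ⟨0, hM⟩))
    (hXX' : ∀ a, X a * star (X a) = star (r a) * r a * (star (r a) * r a))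
    (hv1 : star v * v = 1 - ∑ a, star (r a) * r a)
    (hv0 : v * star v + star g * g
      = star (r ⟨0, hM⟩) * r ⟨0, hM⟩ * (star (r ⟨0, hM⟩) * r ⟨0, hM⟩))
    (hcomm : Commute (∑ a, star (r a) * r a) z)
    {W₀ : F} (hW₀ : W = star (r ⟨0, hM⟩) * r ⟨0, hM⟩ * W₀)
    {θ : ℝ} (hθ : 0 < θ)
    (hκ : ‖star W * W - (∑ a, star (r a) * r a) ^ 4 * z‖ ≤ θ / 2)
    (d : Dim (Cl q)) :
    PosIn (Cl q) (cut θ z) ∧ d.d (cut θ z) ≤ 2 / M := by
  letI := CStarAlgebra.spectralOrder F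
  haveI := CStarAlgebra.spectralOrderedRing F
  set i₀ : Fin M := ⟨0, hM⟩
  set Q : Fin M → F := fun a => star (r a) * r a with hQdef
  set D := ∑ a, Q a with hD
  refine ⟨Dim.cut_posIn hz θ, ?_⟩
  have hQ : ∀ a, PosIn (Cl q) (Q a) := fun a => (Dim.star_mul_posIn (hr a)).1
  have hQ0 : ∀ a, 0 ≤ Q a := fun a => star_mul_self_nonneg _
  have hQs : ∀ a, star (Q a) = Q a := fun a => (hQ0 a).isSelfAdjoint.star_eq
  have hE : ∀ a, PosIn (Cl q) (Q a * Q a) := fun a => by
    have := (Dim.star_mul_posIn (hX a)).2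
    rwa [hXX'] at this
  -- all squares have the same value and their sum is at most one
  have heq : ∀ a, d.d (Q a * Q a) = d.d (Q i₀ * Q i₀) := fun a => by
    have := d.flip (hX a)
    rw [hXX, hXX'] at this
    exact this.symm
  have hcount : (M : ℝ) * d.d (Q i₀ * Q i₀) ≤ 1 := by
    obtain ⟨hp, hsum⟩ := d.sum_eq Finset.univ hE fun a _ b _ hab => by
      rw [mul_assoc, ← mul_assoc (Q a) (Q b), horth a b hab, zero_mul, mul_zero]
    calc (M : ℝ) * d.d (Q i₀ * Q i₀) = ∑ a, d.d (Q a * Q a) := by simp [heq]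
      _ = d.d (∑ a, Q a * Q a) := hsum.symm
      _ ≤ 1 := d.le_one hp
  -- the part below `D ^ 4 * z`
  set c := star (r i₀) * r i₀
  have hWW : d.d (star W * W) ≤ d.d (Q i₀ * Q i₀) := by
    rw [d.flip hW]
    have hWs : W * star W = Q i₀ * (W₀ * star W₀) * Q i₀ := by
      rw [hW₀, star_mul, show star c = c from hQs i₀]
      simp only [Q, c, mul_assoc]
    refine d.mono_smul (Dim.star_mul_posIn hW).2 (hE i₀) (norm_nonneg (W₀ * star W₀)) (sqLe_iff.2 ?_)
    rw [hWs]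
    have := star_left_conjugate_le_conjugate
      (mul_star_self_nonneg W₀).isSelfAdjoint.le_algebraMap_norm_self (Q i₀)
    rw [hQs, Algebra.algebraMap_eq_smul_one, mul_smul_comm, mul_one, smul_mul_assoc] at this
    exact this
  -- the part below `1 - D`
  have hD0 : 0 ≤ D := Finset.sum_nonneg fun a _ => hQ0 a
  have hD1 : 0 ≤ 1 - D := hv1 ▸ star_mul_self_nonneg v
  have hDm : D ∈ Cl q := sum_mem fun a _ => (hQ a).1
  set y := (1 - D ^ 4) * z with hy
  have hz0 : 0 ≤ z := sqLe_iff.1 hz.sqLe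
  have hp4 : (4 : ℝ) • (1 - D) - (1 - D ^ 4) = (1 - D) * (1 - D) * (3 + 2 * D + D ^ 2) := by
    rw [show (4 : ℝ) • (1 - D) = (1 - D) + (1 - D) + (1 - D) + (1 - D) by module]
    noncomm_ring
  have hDc : Commute D (1 - D) := (Commute.one_right D).sub_right (Commute.refl D)
  have hfac : 1 - D ^ 4 = (1 - D) * (1 + D + D ^ 2 + D ^ 3) := by noncomm_ring
  have hD2 : 0 ≤ D ^ 2 := by rw [sq]; exact (Commute.refl D).mul_nonneg hD0 hD0
  have hD3 : 0 ≤ D ^ 3 := by
    rw [pow_succ]; exact ((Commute.refl D).pow_left 2).mul_nonneg hD2 hD0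
  have h14 : 0 ≤ 1 - D ^ 4 := by
    rw [hfac]
    exact Commute.mul_nonneg hD1 (add_nonneg (add_nonneg (add_nonneg zero_le_one hD0) hD2) hD3)
      ((((Commute.one_right _).add_right hDc.symm).add_right (hDc.symm.pow_right 2)).add_right
        (hDc.symm.pow_right 3))
  have hle4 : 1 - D ^ 4 ≤ (4 : ℝ) • (1 - D) := by
    rw [← sub_nonneg, hp4, show (3 : F) + 2 * D + D ^ 2 = 1 + 1 + 1 + (D + D) + D ^ 2 by
        rw [two_mul, show (3 : F) = 1 + 1 + 1 by norm_num]]
    have h1 : Commute (1 - D) (1 + 1 + 1 + (D + D) + D ^ 2) :=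
      ((((Commute.one_right _).add_right (Commute.one_right _)).add_right
        (Commute.one_right _)).add_right (hDc.symm.add_right hDc.symm)).add_right
        (hDc.symm.pow_right 2)
    exact Commute.mul_nonneg (Commute.mul_nonneg hD1 hD1 (Commute.refl _)) (add_nonneg (add_nonneg
      (add_nonneg (add_nonneg zero_le_one zero_le_one) zero_le_one) (add_nonneg hD0 hD0)) hD2)
      (h1.mul_left h1)
  have hc14 : Commute (1 - D ^ 4) z := (Commute.one_left z).sub_left (hcomm.pow_left 4)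
  have hy0 : 0 ≤ y := hc14.mul_nonneg h14 hz0
  have hy1 : y ≤ 1 - D ^ 4 := by
    have h0 : Commute (1 - D ^ 4) (1 - z) := (Commute.one_right _).sub_right hc14
    have := h0.mul_nonneg h14 (sub_nonneg.2 (sqLe_iff.1 hz1))
    rw [mul_sub, mul_one, sub_nonneg] at this
    exact this
  have hym : y ∈ Cl q := mul_mem (sub_mem (one_mem _) (pow_mem hDm 4)) hz.1
  have posIn_of : ∀ {u : F}, u ∈ Cl q → 0 ≤ u → PosIn (Cl q) u := by
    intro u hu hu0
    refine ⟨hu, CFC.sqrt u, ?_, ?_⟩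
    · have h := coe_cfc (fun t : ℝ => Real.sqrt t) (⟨u, hu⟩ : Cl q) (by fun_prop)
        (Subtype.ext hu0.isSelfAdjoint.star_eq)
      rw [CFC.sqrt_eq_real_sqrt u hu0, cfcₙ_eq_cfc (hf0 := Real.sqrt_zero), ← h]
      exact SetLike.coe_mem _
    · rw [(CFC.sqrt_nonneg u).isSelfAdjoint.star_eq, CFC.sqrt_mul_sqrt_self u hu0]
  have hyp : PosIn (Cl q) y := posIn_of hym hy0
  have hv0' : d.d (v * star v) ≤ d.d (Q i₀ * Q i₀) :=
    d.mono_sqLe (Dim.star_mul_posIn hv).2 (hE i₀) ⟨g, by rw [← hv0]; abel⟩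
  have hdy : d.d y ≤ d.d (Q i₀ * Q i₀) := by
    refine le_trans ?_ hv0'
    rw [← d.flip hv]
    refine d.mono_smul hyp (Dim.star_mul_posIn hv).1 (by norm_num : (0 : ℝ) ≤ 4) (sqLe_iff.2 ?_)
    rw [hv1]
    exact hy1.trans hle4
  -- together
  have hsum : PosIn (Cl q) (star W * W + y) :=
    posIn_of (add_mem (Dim.star_mul_posIn hW).1.1 hym) (add_nonneg (star_mul_self_nonneg W) hy0)
  have hle : d.d (cut θ z) ≤ d.d (star W * W + y) := by
    have hnear : ‖star (1 : F) * (star W * W + y) * 1 - z‖ ≤ θ / 2 := by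
      refine le_of_eq_of_le ?_ hκ
      rw [hy, sub_mul, one_mul, star_one, one_mul, mul_one]
      congr 1; abel
    letI := CStarAlgebra.spectralOrder (Cl q)
    haveI := CStarAlgebra.spectralOrderedRing (Cl q)
    obtain ⟨a, ha, ha'⟩ := hz.exists_coe
    obtain ⟨b, hb, hb'⟩ := hsum.exists_coe
    have hab : ‖star (1 : Cl q) * b * 1 - a‖ ≤ θ / 2 := by
      rw [star_one, one_mul, mul_one] at hnear ⊢
      rw [← hb', ← ha'] at hnear
      exact hnear
    obtain ⟨x, hx, -⟩ := Cuntz.exists_conj ha hb (half_pos hθ) hab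
    rw [show 2 * (θ / 2) = θ by ring] at hx
    refine d.mono_one (Dim.cut_posIn hz θ) hsum ?_
    rw [← ha', ← hb', cut, ← coe_cfc _ a (by fun_prop) ha.isSelfAdjoint]
    exact leIn_one_iff.2 ((Cuntz.le_of_le (Cuntz.pcut_nonneg _ _) hx).trans (Cuntz.conj_le _ _))
  refine hle.trans ((d.add_le (Dim.star_mul_posIn hW).1 hyp hsum).trans ?_)
  rw [le_div_iff₀ (by exact_mod_cast hM)]
  nlinarith

end

end Vale.Agent.P095.All.TraceDim
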