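import Vale.Agent.P095.All.TraceDim.Acts
import Vale.Agent.P095.Amen.Defs
import Vale.Agent.P101.KR.SeqBridge

/-!
# P095, traces to states: diagonal elements

For every `n` finitely many central elements satisfying, with the constants `C n`, finitely many
norm relations on `A`: a diagonal choice gives elements of `F_ω(A)` satisfying them with the
sequences `C`, and commuting with countably many given ones.
-/

namespace Vale.Agent.P095.All.TraceDim

open Filter Topology BoundedContinuousFunction Vale.Agent.P101.KR Vale.Agent.P095.Amen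
open TopologicalSpace
open scoped MultiplierAlgebra

noncomputable section

theorem map_eval {F G : Type} [CStarAlgebra F] [CStarAlgebra G] (f : F →⋆ₐ[ℂ] G) {k : ℕ}
    (x : Fin k → F) : ∀ t : Term k, f (t.eval x) = t.eval fun i => f (x i)
  | .var _ => rfl
  | .one => map_one f
  | .add a b => by
    show f (a.eval x + b.eval x) = _
    rw [map_add, map_eval f x a, map_eval f x b]; rfl
  | .mul a b => by
    show f (a.eval x * b.eval x) = _
    rw [map_mul, map_eval f x a, map_eval f x b]; rfl
  | .smul c a => by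
    show f (c • a.eval x) = _
    rw [map_smul, map_eval f x a]; rfl
  | .adj a => by
    show f (star (a.eval x)) = _
    rw [map_star, map_eval f x a]; rfl

/-- Evaluation of a bounded sequence at `n`. -/
def evalAt (B : Type) [CStarAlgebra B] (n : ℕ) : (ℕ →ᵇ B) →⋆ₐ[ℂ] B where
  toFun x := x n
  map_one' := rfl
  map_zero' := rfl
  map_mul' _ _ := rfl
  map_add' _ _ := rfl
  commutes' _ := rfl
  map_star' _ := rfl

theorem evalAt_apply (B : Type) [CStarAlgebra B] (n : ℕ) (x : ℕ →ᵇ B) : evalAt B n x = x n := rfl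

variable {A : Type} [NonUnitalCStarAlgebra A] {ω : Ultrafilter ℕ}

/-- The copy of `a` in the unitization. -/
def inU (a : A) : Unitization ℂ A := Unitization.inr a

theorem norm_inU (a : A) : ‖inU a‖ = ‖a‖ := Unitization.norm_inr a

theorem embA_eq (a : A) : embA A ω a = cls ω (BoundedContinuousFunction.const ℕ (inU a)) := rfl

theorem norm_embA_mul (z : ℕ →ᵇ Unitization ℂ A) (a : A) :
    Tendsto (fun n => ‖z n * inU a‖) (ω : Filter ℕ) (𝓝 ‖cls ω z * embA A ω a‖) := by
  rw [embA_eq, ← map_mul, norm_cls]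
  exact tendsto_omegaNorm ω (z * BoundedContinuousFunction.const ℕ (inU a))

theorem diag [SeparableSpace A] [PartialOrder A] [StarOrderedRing A]
    (hω : (ω : Filter ℕ) ≤ cofinite) {ι : Type} [Fintype ι]
    {m k p : ℕ} (v : Fin k → ι ⊕ Fin m) (rels : Fin p → Term k) (β : Fin p → ℝ)
    (hβ : ∀ q, 0 ≤ β q) {R : ℝ} (hR : 0 ≤ R)
    (X : ℕ → ι → CentralAlgebra ω (Unitization ℂ A)) (hX : ∀ n i, ‖X n i‖ ≤ R)
    (C : Fin m → ℕ →ᵇ Unitization ℂ A) (hC : ∀ l, cls ω (C l) ∈ central (Unitization ℂ A) ω)
    (T : ℕ → ℕ →ᵇ Unitization ℂ A)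
    (h : ∀ᶠ n in (ω : Filter ℕ), ∀ q a, ‖(rels q).eval
        (fun u => (v u).elim (fun i => (X n i : AOmega (Unitization ℂ A) ω))
          (fun l => emb ω (C l n))) * embA A ω a‖ ≤ β q * ‖a‖) :
    ∃ Y : ι → CentralAlgebra ω (Unitization ℂ A),
      (∀ i j, Commute (Y i : AOmega (Unitization ℂ A) ω) (cls ω (T j))) ∧
      ∀ q, ‖(rels q).eval (fun u => (v u).elim (fun i => proj A ω (Y i))
          (fun l => proj A ω ⟨cls ω (C l), hC l⟩))‖ ≤ β q := by
  classical
  set d : ℕ → A := denseSeq A
  set δ : ℕ → ℝ := fun n => 1 / ((n : ℝ) + 1)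
  have hδ : ∀ n, 0 < δ n := fun n => by positivity
  set W : ℕ → ℕ → Fin k → Unitization ℂ A := fun n c u =>
    (v u).elim (fun i => Seq.rep (X n i) c) (fun l => C l n)
  -- one index at a time
  have key : ∀ n, ∃ c : ℕ, (∀ i, ‖Seq.rep (X n i) c‖ ≤ R + 1) ∧
      (∀ i, ∀ j ≤ n, ‖Seq.rep (X n i) c * T j n - T j n * Seq.rep (X n i) c‖ ≤ δ n ∧
        ‖inU (d j) * Seq.rep (X n i) c - Seq.rep (X n i) c * inU (d j)‖ ≤ δ n) ∧
      ((∀ q a, ‖(rels q).eval (fun u => (v u).elim (fun i => (X n i : AOmega (Unitization ℂ A) ω))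
          (fun l => emb ω (C l n))) * embA A ω a‖ ≤ β q * ‖a‖) →
        ∀ q, ∀ j ≤ n, ‖(rels q).eval (W n c) * inU (d j)‖ ≤ β q * ‖d j‖ + δ n) := by
    intro n
    have h1 : ∀ᶠ c in (ω : Filter ℕ), ∀ i, ‖Seq.rep (X n i) c‖ ≤ R + 1 := by
      refine eventually_all.2 fun i => ?_
      have hlim := tendsto_omegaNorm ω (Seq.rep (X n i))
      rw [← norm_cls, Seq.cls_rep] at hlim
      exact (hlim.eventually (gt_mem_nhds (lt_of_le_of_lt (hX n i) (lt_add_one R)))).mono
        fun c hc => hc.le
    have h2 : ∀ᶠ c in (ω : Filter ℕ), ∀ i, ∀ j ≤ n,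
        ‖Seq.rep (X n i) c * T j n - T j n * Seq.rep (X n i) c‖ ≤ δ n ∧
        ‖inU (d j) * Seq.rep (X n i) c - Seq.rep (X n i) c * inU (d j)‖ ≤ δ n := by
      refine eventually_all.2 fun i => (Set.finite_Iic n).eventually_all.2 fun j _ => ?_
      have hcen := fun b => ((Seq.rep_central (X n i)).2 b).eventually (gt_mem_nhds (hδ n))
      filter_upwards [hcen (T j n), hcen (inU (d j))] with c hc1 hc2
      exact ⟨by rw [norm_sub_rev]; exact le_of_lt (by simpa [norm_sub_rev] using hc1),
        le_of_lt (by simpa [norm_sub_rev] using hc2)⟩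
    have h3 : ∀ᶠ c in (ω : Filter ℕ),
        ((∀ q a, ‖(rels q).eval (fun u => (v u).elim
            (fun i => (X n i : AOmega (Unitization ℂ A) ω))
            (fun l => emb ω (C l n))) * embA A ω a‖ ≤ β q * ‖a‖) →
          ∀ q, ∀ j ≤ n, ‖(rels q).eval (W n c) * inU (d j)‖ ≤ β q * ‖d j‖ + δ n) := by
      by_cases hg : ∀ q a, ‖(rels q).eval (fun u => (v u).elim
          (fun i => (X n i : AOmega (Unitization ℂ A) ω))
          (fun l => emb ω (C l n))) * embA A ω a‖ ≤ β q * ‖a‖
      · refine (eventually_all.2 fun q => (Set.finite_Iic n).eventually_all.2 fun j _ => ?_).mono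
          fun c hc _ => hc
        set S : Fin k → ℕ →ᵇ Unitization ℂ A := fun u =>
          (v u).elim (fun i => Seq.rep (X n i)) (fun l => BoundedContinuousFunction.const ℕ (C l n))
        have e1 : (fun u => cls ω (S u)) = fun u => (v u).elim
            (fun i => (X n i : AOmega (Unitization ℂ A) ω)) (fun l => emb ω (C l n)) := by
          funext u
          rcases hvu : v u with i | l
          · simp [S, hvu, Seq.cls_rep]
          · simp only [S, hvu, Sum.elim_inr]
            rfl
        have hlim := norm_embA_mul (ω := ω) ((rels q).eval S) (d j)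
        rw [map_eval, e1] at hlim
        have hlt : ‖(rels q).eval (fun u => (v u).elim (fun i => (X n i : AOmega (Unitization ℂ A) ω))
            (fun l => emb ω (C l n))) * embA A ω (d j)‖ < β q * ‖d j‖ + δ n :=
          lt_of_le_of_lt (hg q (d j)) (lt_add_of_pos_right _ (hδ n))
        filter_upwards [hlim.eventually (gt_mem_nhds hlt)] with c hc
        refine le_of_lt (lt_of_eq_of_lt ?_ hc)
        congr 2
        show _ = evalAt _ c ((rels q).eval S)
        rw [map_eval]
        congr 1
        funext u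
        rcases hvu : v u with i | l <;> simp [W, S, hvu, evalAt_apply]
      · exact Eventually.of_forall fun c hc => absurd hc hg
    obtain ⟨c, hc1, hc2, hc3⟩ := (h1.and (h2.and h3)).exists
    exact ⟨c, hc1, hc2, hc3⟩
  choose φ hφ1 hφ2 hφ3 using key
  set y : ι → ℕ →ᵇ Unitization ℂ A := fun i =>
    Seq.toBdd (fun n => Seq.rep (X n i) (φ n)) (R + 1) fun n => hφ1 n i
  have hy : ∀ i n, y i n = Seq.rep (X n i) (φ n) := fun i n => rfl
  have hsmall : Tendsto δ (ω : Filter ℕ) (𝓝 0) :=
    tendsto_one_div_add_atTop_nhds_zero_nat.mono_left (hω.trans Nat.cofinite_eq_atTop.le)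
  -- centrality
  have hcent : ∀ i, cls ω (y i) ∈ central (Unitization ℂ A) ω := by
    intro i
    refine cls_mem_central.2 fun b => ?_
    refine Metric.tendsto_nhds.2 fun ε hε => ?_
    obtain ⟨j, hj⟩ := (denseRange_denseSeq A).exists_dist_lt b.snd
      (show (0 : ℝ) < ε / (4 * (R + 1)) by positivity)
    filter_upwards [eventually_fine hω j,
      hsmall.eventually (gt_mem_nhds (show (0 : ℝ) < ε / 4 by positivity))] with n hn hs
    have h1 := (hφ2 n i j hn).2.trans hs.le
    rw [dist_zero_right, norm_norm, hy]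
    set w := Seq.rep (X n i) (φ n)
    have hw : ‖w‖ ≤ R + 1 := hφ1 n i
    have e : b * w - w * b = inU (b.snd - d j) * w - w * inU (b.snd - d j)
        + (inU (d j) * w - w * inU (d j)) := by
      conv_lhs => rw [← Unitization.inl_fst_add_inr_snd_eq b]
      have hc : Unitization.inl b.fst * w = w * Unitization.inl b.fst := by
        rw [← Unitization.algebraMap_eq_inl]
        exact Algebra.commutes _ _
      simp only [inU, Unitization.inr_sub, add_mul, mul_add, sub_mul, mul_sub, hc]
      abel
    rw [e]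
    have hb : ‖inU (b.snd - d j)‖ ≤ ε / (4 * (R + 1)) := by
      rw [norm_inU, ← dist_eq_norm]; exact hj.le
    have hb' : ‖inU (b.snd - d j)‖ * ‖w‖ ≤ ε / 4 :=
      (mul_le_mul hb hw (norm_nonneg _) (by positivity)).trans_eq (by field_simp)
    refine lt_of_le_of_lt ((norm_add_le _ _).trans (add_le_add ((norm_sub_le _ _).trans
      (add_le_add (norm_mul_le _ _) (norm_mul_le _ _))) h1)) ?_
    rw [mul_comm ‖w‖]
    linarith [hs, hb']
  refine ⟨fun i => ⟨cls ω (y i), hcent i⟩, fun i j => ?_, fun q => ?_⟩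
  · show cls ω (y i) * cls ω (T j) = cls ω (T j) * cls ω (y i)
    rw [← map_mul, ← map_mul, cls_eq_iff]
    refine squeeze_zero' (Eventually.of_forall fun _ => norm_nonneg _) ?_ hsmall
    filter_upwards [eventually_fine hω j] with n hn
    exact (hφ2 n i j hn).1
  · set z : Fin k → CentralAlgebra ω (Unitization ℂ A) := fun u =>
      (v u).elim (fun i => ⟨cls ω (y i), hcent i⟩) (fun l => ⟨cls ω (C l), hC l⟩)
    have e1 : (fun u => (v u).elim (fun i => proj A ω ⟨cls ω (y i), hcent i⟩)
        (fun l => proj A ω ⟨cls ω (C l), hC l⟩)) = fun u => proj A ω (z u) := by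
      funext u
      rcases hvu : v u with i | l <;> simp [z, hvu]
    rw [e1, ← map_eval]
    set Z := (rels q).eval z
    show ‖(proj A ω Z : 𝓜(ℂ, her A ω))‖ ≤ β q
    refine (acts_proj Z).norm_le (hβ q) fun a => ?_
    set S : Fin k → ℕ →ᵇ Unitization ℂ A := fun u => (v u).elim y C
    have eZ : (Z : AOmega (Unitization ℂ A) ω) = cls ω ((rels q).eval S) := by
      rw [map_eval]
      show (central (Unitization ℂ A) ω).subtype ((rels q).eval z) = _
      rw [map_eval]
      congr 1
      funext u
      rcases hvu : v u with i | l <;> simp [z, S, hvu]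
    have hd : ∀ j, ‖(Z : AOmega (Unitization ℂ A) ω) * embA A ω (d j)‖ ≤ β q * ‖d j‖ := fun j => by
      rw [eZ]
      have hub : Tendsto (fun n => β q * ‖d j‖ + δ n) (ω : Filter ℕ) (𝓝 (β q * ‖d j‖)) := by
        simpa using hsmall.const_add (β q * ‖d j‖)
      refine le_of_tendsto_of_tendsto (norm_embA_mul _ (d j)) hub ?_
      filter_upwards [h, eventually_fine hω j] with n hn hjn
      refine le_of_eq_of_le ?_ (hφ3 n hn q j hjn)
      congr 2
      show evalAt _ n ((rels q).eval S) = _
      rw [map_eval]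
      congr 1
      funext u
      rcases hvu : v u with i | l <;> simp [W, S, hvu, evalAt_apply, hy]
    have hclosed : IsClosed {a : A | ‖(Z : AOmega (Unitization ℂ A) ω) * embA A ω a‖ ≤ β q * ‖a‖} := by
      have hc : Continuous (embA A ω) := AddMonoidHomClass.continuous_of_bound (embA A ω) 1
        fun x => by rw [one_mul]; exact NonUnitalStarAlgHom.norm_apply_le _ x
      exact isClosed_le ((continuous_const.mul hc).norm) (continuous_const.mul continuous_norm)
    exact hclosed.closure_subset_iff.2 (Set.range_subset_iff.2 hd)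
      ((denseRange_denseSeq A) a)

end

end Vale.Agent.P095.All.TraceDim
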