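import Vale.Agent.P095.All.TraceDim.Main
import Vale.Agent.P095.All.FA.Props.Copies

/-!
# P095, traces to states: the target
-/

namespace Vale.Agent.P095.All.TraceDim

open Vale.Agent.P101.KR

/-- Nuclearity gives `TraceDim` on `F_ω(A)`, given random rows. -/
theorem traceDimFA_of (h : RandomRowTarget) : TraceDimFATarget :=
  traceDimFA_of_copies h fun _ _ _ _ hω => hasCopies_FA hω

end Vale.Agent.P095.All.TraceDim
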