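import Vale.Agent.P095.All.TraceDim.OrderZero
import Vale.Agent.P095.All.Random.Defs

/-!
# P095, traces to states: the elements built from dimension drop data

From the relations of `Z_{L,L+1}`, `L = M N`: the blocks, the maps between them, the
element below the first block, and the images of scalar matrices living in the first block of rows.
-/

namespace Vale.Agent.P095.All.TraceDim

open Vale.Agent.P101.KR
open scoped CStarAlgebra ComplexOrder

noncomputable section

/-- The variables. -/
abbrev Var (M m : ℕ) : Type := (Fin M ⊕ Fin M) ⊕ (Fin m ⊕ Bool)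

variable {M m : ℕ}

/-- Roots of the blocks. -/
def vR (a : Fin M) : Var M m := Sum.inl (Sum.inl a)

/-- The maps between the blocks. -/
def vX (a : Fin M) : Var M m := Sum.inl (Sum.inr a)

/-- The images of the matrices. -/
def vU (i : Fin m) : Var M m := Sum.inr (Sum.inl i)

/-- The complement. -/
def vV : Var M m := Sum.inr (Sum.inr false)

/-- The room left in the first block. -/
def vG : Var M m := Sum.inr (Sum.inr true)

section Relations

variable {F : Type*} [CStarAlgebra F] (x : Var M m → F)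

/-- A block. -/
def blk (a : Fin M) : F := star (x (vR a)) * x (vR a)

/-- All blocks. -/
def tot : F := ∑ a, blk x a

/-- The carrier, `W`. -/
def carry (hM : 0 < M) (c : Fin m → F) : F := blk x ⟨0, hM⟩ * ∑ i, x (vU i) * c i

/-- The defect of the carrier. -/
def defect (hM : 0 < M) (c : Fin m → F) : F :=
  star (carry x hM c) * carry x hM c - tot x ^ 4 * ∑ i, star (c i) * c i

/-- The relations. -/
structure Rel (hM : 0 < M) : Prop where
  orth : ∀ a b, a ≠ b → blk x a * blk x b = 0
  left : ∀ a, star (x (vX a)) * x (vX a) = blk x ⟨0, hM⟩ * blk x ⟨0, hM⟩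
  right : ∀ a, x (vX a) * star (x (vX a)) = blk x a * blk x a
  compl : star (x vV) * x vV = 1 - tot x
  room : x vV * star (x vV) + star (x vG) * x vG = blk x ⟨0, hM⟩ * blk x ⟨0, hM⟩

theorem map_defect {E : Type*} [CStarAlgebra E] (f : F →⋆ₐ[ℂ] E) (hM : 0 < M) (c : Fin m → F) :
    f (defect x hM c) = defect (fun i => f (x i)) hM (fun i => f (c i)) := by
  simp only [defect, carry, tot, blk, map_sub, map_mul, map_star, map_sum, map_pow]

end Relations

theorem orderZero_map {F E : Type*} [CStarAlgebra F] [CStarAlgebra E] (f : F →⋆ₐ[ℂ] E) {L : ℕ}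
    {P : Fin L → Fin L → F} (hP : OrderZeroN P) : OrderZeroN fun a b => f (P a b) where
  star_eq a b := by rw [← map_star, hP.star_eq]
  mul_eq a b c d := by
    rw [← map_mul, hP.mul_eq]
    split_ifs
    · simp [diagN, map_mul, map_sum]
    · exact map_zero f
  pos a := by
    obtain ⟨c, hc⟩ := hP.pos a
    exact ⟨f c, by rw [hc, map_mul, map_star]⟩

variable {F : Type} [CStarAlgebra F]

/-- The frame: exact relations, bounds, and the estimate in every algebra with commuting
constants. -/
theorem frame {N : ℕ} (hM : 0 < M) (hN : 0 < N) [NeZero (M * N)] (D : DropDataN (M * N) F)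
    (Y : Fin m → CStarMatrix (Fin (M * N)) (Fin (M * N)) ℂ)
    (hrow : ∀ i, ∀ a b : Fin (M * N), N ≤ (a : ℕ) → Y i a b = 0) {R : ℝ} (hR : ∀ i, ‖Y i‖ ≤ R) :
    ∃ x : Var M m → F, (∀ i, ‖x i‖ ≤ max 1 R) ∧ Rel x hM ∧
      ∀ (B : Type) [CStarAlgebra B] (f : F →⋆ₐ[ℂ] B) (A : Type) [NonUnitalCStarAlgebra A] [PartialOrder A] [StarOrderedRing A]
        (j : A →⋆ₙₐ[ℂ] B), (∀ y a, Commute (f y) (j a)) → ∀ (c : Fin m → A) (κ : ℝ),
        ‖star (rowMat c Y) * rowMat c Y - diagMat (∑ i, star (c i) * c i)‖ ≤ κ →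
        ‖defect (fun i => f (x i)) hM (fun i => j (c i))‖ ≤ κ := by
  classical
  letI := CStarAlgebra.spectralOrder F
  haveI := CStarAlgebra.spectralOrderedRing F
  set P := D.P with hPdef
  have hP : OrderZeroN P := D.orderZero
  set T := diagN P
  set e : Fin M × Fin N ≃ Fin (M * N) := finProdFinEquiv
  set i₀ : Fin M := ⟨0, hM⟩
  set Q : Fin M → F := fun a => ∑ b, P (e (a, b)) (e (a, b))
  have hpp : ∀ k, 0 ≤ P k k := fun k => by
    obtain ⟨c, hc⟩ := hP.pos k
    rw [hc]; exact star_mul_self_nonneg c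
  have hQ0 : ∀ a, 0 ≤ Q a := fun a => Finset.sum_nonneg fun b _ => hpp _
  have hQT : ∑ a, Q a = T := by
    show _ = ∑ k, P k k
    rw [← e.sum_comp fun k => P k k, Fintype.sum_prod_type]
  have hQP : ∀ a a' b' l, Q a * P (e (a', b')) l
      = if a = a' then T * P (e (a', b')) l else 0 := fun a a' b' l => by
    simp only [Q, Finset.sum_mul, hP.mul_eq, e.apply_eq_iff_eq, Prod.mk.injEq]
    rcases eq_or_ne a a' with rfl | ha
    · simp [T]
    · simp [ha]
  have hQQ : ∀ a a', Q a * Q a' = if a = a' then T * Q a' else 0 := fun a a' => by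
    show Q a * (∑ b, P (e (a', b)) (e (a', b))) = _
    simp only [Finset.mul_sum, hQP]
    split_ifs <;> simp [Q, Finset.mul_sum]
  have hT0 : 0 ≤ T := hQT ▸ Finset.sum_nonneg fun a _ => hQ0 a
  have hT1 : T ≤ 1 := sub_nonneg.1 (D.star_mul_v ▸ star_mul_self_nonneg D.v)
  have hTn : ‖T‖ ≤ 1 := (CStarAlgebra.norm_le_one_iff_of_nonneg T hT0).2 hT1
  -- the element below the first block
  have hv : D.v * star D.v ≤ Q i₀ * Q i₀ := by
    set b₀ : Fin N := ⟨0, hN⟩
    have h0 : (0 : Fin (M * N)) = e (i₀, b₀) := Fin.ext (by simp [e, i₀, b₀])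
    have hn : ‖D.v * star D.v‖ ≤ 1 := by
      rw [CStarRing.norm_self_mul_star, ← CStarRing.norm_star_mul_self, D.star_mul_v,
        CStarAlgebra.norm_le_one_iff_of_nonneg _ (sub_nonneg.2 hT1)]
      exact sub_le_self _ hT0
    have h1 : D.v * star D.v ≤ P 0 0 * P 0 0 := by
      have h2 := star_left_conjugate_le_conjugate
        ((CStarAlgebra.norm_le_one_iff_of_nonneg _ (mul_star_self_nonneg D.v)).1 hn) (P 0 0)
      rw [hP.star_eq, mul_one] at h2
      refine le_trans (le_of_eq ?_) h2
      have e1 : D.v = P 0 0 * D.v := D.fix_v.symm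
      conv_lhs => rw [e1, star_mul, hP.star_eq]
      simp only [mul_assoc]
    refine h1.trans ?_
    have hsq : ∀ k, T * P k k = P k k * P k k := fun k => by rw [hP.mul_eq, if_pos rfl]
    rw [hQQ, if_pos rfl, ← hsq, h0]
    show T * P (e (i₀, b₀)) (e (i₀, b₀)) ≤ T * ∑ b, P (e (i₀, b)) (e (i₀, b))
    rw [Finset.mul_sum]
    refine Finset.single_le_sum (f := fun b => T * P (e (i₀, b)) (e (i₀, b))) (fun b _ => ?_)
      (Finset.mem_univ b₀)
    rw [hsq]
    exact (hpp _).isSelfAdjoint.mul_self_nonneg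
  set g := CFC.sqrt (Q i₀ * Q i₀ - D.v * star D.v)
  have hg : star g * g = Q i₀ * Q i₀ - D.v * star D.v := by
    rw [(CFC.sqrt_nonneg _).isSelfAdjoint.star_eq, CFC.sqrt_mul_sqrt_self _ (sub_nonneg.2 hv)]
  set X : Fin M → F := fun a => ∑ b, P (e (a, b)) (e (i₀, b))
  have hX : ∀ a, star (X a) * X a = Q i₀ * Q i₀ ∧ X a * star (X a) = Q a * Q a := fun a => by
    refine ⟨?_, ?_⟩ <;>
    · simp only [X, star_sum, hP.star_eq, Finset.sum_mul, Finset.mul_sum, hP.mul_eq,
        e.apply_eq_iff_eq, Prod.mk.injEq, true_and, hQQ, if_true]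
      simp [Q, T, Finset.mul_sum]
  set u : Fin m → F := fun i => phi P fun a b => algebraMap ℂ F (Y i a b)
  let x : Var M m → F := Sum.elim (Sum.elim (fun a => CFC.sqrt (Q a)) X)
    (Sum.elim u fun b => if b then g else D.v)
  have hblk : ∀ a, blk x a = Q a := fun a => by
    show star (CFC.sqrt (Q a)) * CFC.sqrt (Q a) = Q a
    rw [(CFC.sqrt_nonneg _).isSelfAdjoint.star_eq, CFC.sqrt_mul_sqrt_self _ (hQ0 a)]
  have htot : tot x = T := by simp only [tot, hblk, hQT]
  have hrel : Rel x hM :=
    { orth := fun a b hab => by rw [hblk, hblk, hQQ, if_neg hab]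
      left := fun a => by rw [hblk]; exact (hX a).1
      right := fun a => by rw [hblk]; exact (hX a).2
      compl := by rw [htot]; exact D.star_mul_v
      room := by
        rw [hblk]
        show D.v * star D.v + star g * g = _
        rw [hg, add_sub_cancel] }
  refine ⟨x, ?_, hrel, ?_⟩
  · have hQn : ∀ a, ‖Q a‖ ≤ 1 := fun a => (CStarAlgebra.norm_le_one_iff_of_nonneg _ (hQ0 a)).2
      ((hQT ▸ Finset.single_le_sum (fun b _ => hQ0 b) (Finset.mem_univ a)).trans hT1)
    have hQQn : ∀ a, ‖Q a * Q a‖ ≤ 1 := fun a =>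
      (norm_mul_le _ _).trans (mul_le_one₀ (hQn a) (norm_nonneg _) (hQn a))
    have small : ∀ {y q : F}, star y * y ≤ q → ‖q‖ ≤ 1 → ‖y‖ ≤ max 1 R := fun {y q} h hq => by
      refine le_max_of_le_left ?_
      have := (CStarAlgebra.norm_le_norm_of_nonneg_of_le (star_mul_self_nonneg y) h).trans hq
      rw [CStarRing.norm_star_mul_self] at this
      nlinarith [norm_nonneg y]
    rintro ((a | a) | (i | _ | _))
    · exact small (le_of_eq (hblk a)) (hQn a)
    · exact small (le_of_eq (hX a).1) (hQQn i₀)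
    · exact le_max_of_le_right ((phi_scalar hP hTn (Y i)).trans (hR i))
    · exact small (le_of_eq D.star_mul_v) ((CStarAlgebra.norm_le_one_iff_of_nonneg _
        (sub_nonneg.2 hT1)).2 (sub_le_self _ hT0))
    · exact small (hg.trans_le (sub_le_self _ (mul_star_self_nonneg _))) (hQQn i₀)
  intro B _ f A _ _ _ j hcomm c κ hκ
  letI := CStarAlgebra.spectralOrder B
  haveI := CStarAlgebra.spectralOrderedRing B
  set P' : Fin (M * N) → Fin (M * N) → B := fun a b => f (P a b)
  have hP' : OrderZeroN P' := orderZero_map f hP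
  have hdiag : diagN P' = f T := by simp [diagN, P', T, map_sum]
  have hD' : ‖diagN P'‖ ≤ 1 := hdiag ▸ (NonUnitalStarAlgHom.norm_apply_le f T).trans hTn
  have hj : ∀ a, j a ∈ comm P' := fun a => (mem_comm hP').2 fun _ _ => hcomm _ _
  set ζ := ∑ i, star (c i) * c i
  have hζ : IsSelfAdjoint ζ := isSelfAdjoint_sum _ fun i _ => IsSelfAdjoint.star_mul_self _
  have hb := psi_bound hP' hD' j hj (rowMat c Y) ζ hζ hκ
  set S := ∑ i, f (u i) * j (c i) with hS
  have hphi : phi P' (fun a b => j (rowMat c Y a b)) = S := by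
    simp only [phi, rowMat, map_sum, hS, u, map_mul, AlgHomClass.commutes, Finset.sum_mul, P']
    conv_rhs => rw [Finset.sum_comm]; enter [2, a]; rw [Finset.sum_comm]
    refine Finset.sum_congr rfl fun a _ => Finset.sum_congr rfl fun b _ => ?_
    show f (P a b) * j (∑ i, Y i a b • c i) = _
    rw [map_sum, Finset.mul_sum]
    refine Finset.sum_congr rfl fun i _ => ?_
    rw [map_smul, Algebra.algebraMap_eq_smul_one, mul_smul_comm, mul_smul_comm, mul_one,
      smul_mul_assoc]
  rw [hphi, hdiag] at hb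
  have hTs : star (f T) = f T := by rw [← map_star, hT0.isSelfAdjoint.star_eq]
  have hQu : ∀ i, Q i₀ * u i = T * u i := fun i => by
    show Q i₀ * phi P _ = T * phi P _
    simp only [phi, Finset.mul_sum]
    refine Finset.sum_congr rfl fun a _ => Finset.sum_congr rfl fun b _ => ?_
    rcases le_or_gt N (a : ℕ) with ha | ha
    · simp [hrow i a b ha]
    · obtain ⟨⟨a', b'⟩, rfl⟩ := e.surjective a
      have ha' : a' = i₀ := by
        have hv : ((e (a', b')) : ℕ) = (b' : ℕ) + N * (a' : ℕ) := rfl
        rw [hv] at ha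
        refine Fin.ext (Nat.eq_zero_of_not_pos fun h0 => ?_)
        have : N * 1 ≤ N * (a' : ℕ) := Nat.mul_le_mul_left N h0
        omega
      rw [← mul_assoc, ← mul_assoc, hQP, if_pos ha'.symm]
  have hTu : ∀ i, Commute T (u i) := fun i => Commute.sum_right _ _ _ fun a _ =>
    Commute.sum_right _ _ _ fun b _ => (diag_comm hP a b).mul_right (Algebra.commutes _ _).symm
  have hTS : Commute (f T) S := Commute.sum_right _ _ _ fun i _ =>
    ((hTu i).map f).mul_right (hcomm _ _)
  have hW : carry (fun i => f (x i)) hM (fun i => j (c i)) = f T * S := by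
    show blk (fun i => f (x i)) i₀ * _ = _
    have hb' : blk (fun i => f (x i)) i₀ = f (Q i₀) := by
      rw [← hblk i₀]; simp [blk, map_mul, map_star]
    rw [hb', hS, Finset.mul_sum, Finset.mul_sum]
    refine Finset.sum_congr rfl fun i _ => ?_
    show f (Q i₀) * (f (u i) * j (c i)) = _
    rw [← mul_assoc, ← map_mul, hQu, map_mul, mul_assoc]
  have hD2 : tot (fun i => f (x i)) = f T := by
    rw [← htot]; simp [tot, blk, map_sum, map_mul, map_star]
  have hζ' : ∑ i, star (j (c i)) * j (c i) = j ζ := by simp [ζ, map_sum, map_mul, map_star]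
  have key : defect (fun i => f (x i)) hM (fun i => j (c i))
      = f T * (star S * S - f T * f T * j ζ) * f T := by
    simp only [defect, hW, hD2, hζ', star_mul, hTs, mul_sub, sub_mul]
    have h1 : star S * f T = f T * star S := by
      have := congrArg star hTS.eq
      simpa [star_mul, hTs] using this
    congr 1
    · rw [h1]
      simp only [mul_assoc]
      rw [← hTS.eq]
    · have hc2 : Commute (j ζ) (f T) := (hcomm T ζ).symm
      rw [show f T * (f T * f T * j ζ) * f T = f T * (f T * f T) * (j ζ * f T) by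
        simp only [mul_assoc], hc2.eq]
      simp only [pow_succ, pow_zero, one_mul, mul_assoc]
  rw [key]
  have hfT : ‖f T‖ ≤ 1 := (NonUnitalStarAlgHom.norm_apply_le f T).trans hTn
  exact norm_mul₃_le.trans ((mul_le_of_le_one_right (by positivity) hfT).trans
    ((mul_le_of_le_one_left (norm_nonneg _) hfT).trans hb))

end

end Vale.Agent.P095.All.TraceDim
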