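import Vale.Agent.P095.All.TraceDim.Diag

/-!
# P095, traces to states: lifts with norm bounds

`proj` is onto, and finitely many elements `c` of `F_ω(A)` have, up to a scalar near one, lifts
`C l` whose values lie in `A` and satisfy the two bounds of `∑ c*c` and `∑ cc*` exactly.
-/

namespace Vale.Agent.P095.All.TraceDim

open Filter Topology BoundedContinuousFunction Vale.Agent.P101.KR
open TopologicalSpace
open scoped MultiplierAlgebra CStarAlgebra

noncomputable section

/-- `sqrt (r / max t r)`. -/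
def damp (r : ℝ) (t : ℝ) : ℝ := Real.sqrt (r / max t r)

theorem continuous_damp {r : ℝ} (hr : 0 < r) : Continuous (damp r) :=
  (continuous_const.div (continuous_id.max continuous_const)
    fun t => (lt_max_of_lt_right hr).ne').sqrt

theorem damp_props {r : ℝ} (hr : 0 < r) {B : Type} [CStarAlgebra B] [PartialOrder B]
    [StarOrderedRing B] {Y : B} (hY : 0 ≤ Y) :
    star (cfc (damp r) Y) = cfc (damp r) Y ∧ cfc (damp r) Y * cfc (damp r) Y ≤ 1 ∧
      cfc (damp r) Y * Y * cfc (damp r) Y ≤ r • (1 : B) := by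
  have hc := continuous_damp hr
  have hm : ∀ t : ℝ, 0 < max t r := fun t => lt_max_of_lt_right hr
  have hsq : ∀ t : ℝ, damp r t * damp r t = r / max t r := fun t =>
    Real.mul_self_sqrt (div_pos hr (hm t)).le
  refine ⟨(cfc_predicate (R := ℝ) _ Y).star_eq, ?_, ?_⟩
  · rw [← cfc_mul _ _ Y hc.continuousOn hc.continuousOn]
    refine cfc_le_one _ _ fun t _ => ?_
    rw [hsq, div_le_one (hm t)]
    exact le_max_right _ _
  · have hid : cfc (fun t : ℝ => t) Y = Y := cfc_id' ℝ Y hY.isSelfAdjoint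
    conv_lhs => arg 1; arg 2; rw [← hid]
    rw [← cfc_mul _ _ Y hc.continuousOn (by fun_prop),
      ← cfc_mul (fun t => damp r t * t) _ Y (hc.mul continuous_id).continuousOn hc.continuousOn,
      ← Algebra.algebraMap_eq_smul_one]
    refine cfc_le_algebraMap _ _ _ fun t _ => ?_
    rw [show damp r t * t * damp r t = damp r t * damp r t * t by ring, hsq, div_mul_eq_mul_div,
      div_le_iff₀ (hm t)]
    exact mul_le_mul_of_nonneg_left (le_max_left _ _) hr.le

theorem map_damp {B E : Type} [CStarAlgebra B] [CStarAlgebra E] [PartialOrder E] [StarOrderedRing E]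
    (f : B →⋆ₐ[ℂ] E) {r : ℝ} (hr : 0 < r) {Y : B} (hY : IsSelfAdjoint Y) (h0 : 0 ≤ f Y)
    (h : ‖f Y‖ ≤ r) : f (cfc (damp r) Y) = 1 := by
  have hcf : Continuous f := AddMonoidHomClass.continuous_of_bound f 1 fun x => by
    rw [one_mul]; exact NonUnitalStarAlgHom.norm_apply_le f x
  have hY' : IsSelfAdjoint (f Y) := hY.map f
  have e := StarAlgHom.map_cfc f (damp r) Y (continuous_damp hr).continuousOn hcf hY hY'
  rw [e, ← cfc_one ℝ (f Y) hY']
  refine cfc_congr fun t ht => ?_
  have ht1 : t ≤ r := by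
    rcases subsingleton_or_nontrivial E with hE | hE
    · simp [spectrum.of_subsingleton] at ht
    · exact (le_abs_self t).trans ((Real.norm_eq_abs t ▸ spectrum.norm_le_norm_of_mem ht).trans h)
  simp [damp, max_eq_right ht1, div_self hr.ne']

/-- A lift of no larger norm. -/
theorem lift_small {B E : Type} [CStarAlgebra B] [CStarAlgebra E] (f : B →⋆ₐ[ℂ] E) (x : B) :
    ∃ x', f x' = f x ∧ ‖x'‖ ≤ ‖f x‖ := by
  letI := CStarAlgebra.spectralOrder B
  haveI := CStarAlgebra.spectralOrderedRing B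
  letI := CStarAlgebra.spectralOrder E
  haveI := CStarAlgebra.spectralOrderedRing E
  rcases eq_or_lt_of_le (norm_nonneg (f x)) with h | h
  · exact ⟨0, by rw [map_zero, eq_comm, ← norm_eq_zero]; exact h.symm, by simp⟩
  set r := ‖f x‖ * ‖f x‖
  have hr : 0 < r := mul_pos h h
  obtain ⟨hg, -, hgY⟩ := damp_props hr (star_mul_self_nonneg x)
  set g := cfc (damp r) (star x * x)
  refine ⟨x * g, ?_, ?_⟩
  · rw [map_mul, map_damp f hr (IsSelfAdjoint.star_mul_self x)
      (by rw [map_mul, map_star]; exact star_mul_self_nonneg _)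
      (by rw [map_mul, map_star, CStarRing.norm_star_mul_self]), mul_one]
  · have hn : ‖x * g‖ * ‖x * g‖ ≤ r := by
      rw [← CStarRing.norm_star_mul_self, star_mul, hg,
        show g * star x * (x * g) = g * (star x * x) * g by simp only [mul_assoc],
        CStarAlgebra.norm_le_iff_le_algebraMap _ hr.le
          (by have := star_left_conjugate_nonneg (star_mul_self_nonneg x) g; rwa [hg] at this),
        Algebra.algebraMap_eq_smul_one]
      exact hgY
    exact (mul_self_le_mul_self_iff (norm_nonneg _) h.le).2 hn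

variable {A : Type} [NonUnitalCStarAlgebra A] {ω : Ultrafilter ℕ}

/-- The quotient map is onto. -/
theorem proj_surjective : Function.Surjective (proj A ω) := by
  haveI : IsClosed (central (Unitization ℂ A) ω : Set (AOmega (Unitization ℂ A) ω)) :=
    isClosed_central
  haveI : CompleteSpace (CentralAlgebra ω (Unitization ℂ A)) :=
    (isClosed_central (A := Unitization ℂ A) (ω := ω)).completeSpace_coe
  intro y
  have hy : (y : 𝓜(ℂ, her A ω)) ∈ closure ((rep A ω).range : Set 𝓜(ℂ, her A ω)) := y.2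
  have hpick : ∀ n : ℕ, ∃ x, ‖rep A ω x - (y : 𝓜(ℂ, her A ω))‖ ≤ (1 / 2 : ℝ) ^ n := fun n => by
    obtain ⟨b, hb, hd⟩ := Metric.mem_closure_iff.1 hy ((1 / 2 : ℝ) ^ n) (by positivity)
    obtain ⟨x, rfl⟩ := hb
    rw [dist_eq_norm, norm_sub_rev] at hd
    exact ⟨x, hd.le⟩
  choose x hx using hpick
  have hlift : ∀ n : ℕ, ∃ w, rep A ω w = rep A ω (x (n + 1) - x n) ∧
      ‖w‖ ≤ 2 * (1 / 2 : ℝ) ^ n := fun n => by
    obtain ⟨w, h1, h2⟩ := lift_small (rep A ω) (x (n + 1) - x n)
    refine ⟨w, h1, h2.trans ?_⟩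
    rw [map_sub, ← sub_sub_sub_cancel_right (rep A ω (x (n + 1))) (rep A ω (x n)) (y : 𝓜(ℂ, her A ω))]
    refine (norm_sub_le _ _).trans ?_
    have e1 := hx (n + 1)
    have e2 := hx n
    have : (1 / 2 : ℝ) ^ (n + 1) ≤ (1 / 2 : ℝ) ^ n :=
      pow_le_pow_of_le_one (by norm_num) (by norm_num) (Nat.le_succ n)
    linarith
  choose w hw1 hw2 using hlift
  have hsum : Summable w := Summable.of_norm_bounded
    ((summable_geometric_of_lt_one (by norm_num) (by norm_num)).mul_left 2) hw2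
  refine ⟨x 0 + ∑' n, w n, Subtype.ext ?_⟩
  show rep A ω (x 0 + ∑' n, w n) = y
  have hc : Continuous (rep A ω) := AddMonoidHomClass.continuous_of_bound (rep A ω) 1 fun z => by
    rw [one_mul]; exact NonUnitalStarAlgHom.norm_apply_le _ z
  have hpart : ∀ n, rep A ω (x 0 + ∑ i ∈ Finset.range n, w i) = rep A ω (x n) := fun n => by
    induction n with
    | zero => simp
    | succ n ih => rw [Finset.sum_range_succ, ← add_assoc, map_add, ih, hw1, map_sub, add_sub_cancel]
  have h1 := ((hc.tendsto _).comp (hsum.hasSum.tendsto_sum_nat.const_add (x 0)))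
  have h2 : Tendsto (fun n => rep A ω (x n)) atTop (𝓝 (y : 𝓜(ℂ, her A ω))) := by
    rw [tendsto_iff_norm_sub_tendsto_zero]
    exact squeeze_zero (fun n => norm_nonneg _) hx
      (tendsto_pow_atTop_nhds_zero_of_lt_one (by norm_num) (by norm_num))
  exact tendsto_nhds_unique (h1.congr fun n => hpart n) h2

section Constants

variable [PartialOrder A] [StarOrderedRing A] [SeparableSpace A]

/-- An approximate unit as one element of `F_ω(A)`: the unit. -/
theorem exists_unit_seq (hω : (ω : Filter ℕ) ≤ cofinite) :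
    ∃ (e : ℕ →ᵇ Unitization ℂ A) (he : cls ω e ∈ central (Unitization ℂ A) ω),
      (∀ n, ∃ a : A, e n = inU a) ∧ (∀ n, star (e n) = e n) ∧ (∀ n, ‖e n‖ ≤ 1) ∧
      proj A ω ⟨cls ω e, he⟩ = 1 := by
  set d : ℕ → A := denseSeq A
  set l := CStarAlgebra.approximateUnit A
  have hl := CStarAlgebra.increasingApproximateUnit A
  have key : ∀ n : ℕ, ∃ a : A, star a = a ∧ ‖a‖ ≤ 1 ∧ ∀ j ≤ n,
      ‖a * d j - d j‖ ≤ 1 / ((n : ℝ) + 1) ∧ ‖d j * a - d j‖ ≤ 1 / ((n : ℝ) + 1) := by
    intro n
    have h3 : ∀ᶠ a in l, ∀ j ≤ n,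
        ‖a * d j - d j‖ ≤ 1 / ((n : ℝ) + 1) ∧ ‖d j * a - d j‖ ≤ 1 / ((n : ℝ) + 1) := by
      refine (Set.finite_Iic n).eventually_all.2 fun j _ => ?_
      have hp : (0 : ℝ) < 1 / ((n : ℝ) + 1) := by positivity
      filter_upwards [Metric.tendsto_nhds.1 (hl.tendsto_mul_right (d j)) _ hp,
        Metric.tendsto_nhds.1 (hl.tendsto_mul_left (d j)) _ hp] with a h1 h2
      rw [dist_eq_norm] at h1 h2
      exact ⟨h1.le, h2.le⟩
    obtain ⟨a, h1, h2, h4⟩ := (hl.eventually_star_eq.and (hl.eventually_norm.and h3)).exists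
    exact ⟨a, h1, h2, h4⟩
  choose a ha1 ha2 ha3 using key
  set e : ℕ →ᵇ Unitization ℂ A := Seq.toBdd (fun n => inU (a n)) 1 fun n => by
    rw [norm_inU]; exact ha2 n
  have he' : ∀ n, e n = inU (a n) := fun n => rfl
  have hsmall : Tendsto (fun n : ℕ => 1 / ((n : ℝ) + 1)) (ω : Filter ℕ) (𝓝 0) :=
    tendsto_one_div_add_atTop_nhds_zero_nat.mono_left (hω.trans Nat.cofinite_eq_atTop.le)
  have happrox : ∀ x : A, Tendsto (fun n => ‖a n * x - x‖) (ω : Filter ℕ) (𝓝 0) ∧
      Tendsto (fun n => ‖x * a n - x‖) (ω : Filter ℕ) (𝓝 0) := by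
    intro x
    constructor <;> refine Metric.tendsto_nhds.2 fun ε hε => ?_ <;>
      obtain ⟨j, hj⟩ := (denseRange_denseSeq A).exists_dist_lt x (show (0 : ℝ) < ε / 4 by positivity) <;>
      filter_upwards [eventually_fine hω j,
        hsmall.eventually (gt_mem_nhds (show (0 : ℝ) < ε / 4 by positivity))] with n hn hs <;>
      rw [dist_zero_right, norm_norm] <;> rw [dist_eq_norm] at hj
    · have h1 := (ha3 n j hn).1
      have e1 : a n * x - x = a n * (x - d j) + (a n * d j - d j) - (x - d j) := by noncomm_ring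
      rw [e1]
      have h2 := (norm_mul_le (a n) (x - d j)).trans (mul_le_of_le_one_left (norm_nonneg _) (ha2 n))
      refine lt_of_le_of_lt ((norm_sub_le _ _).trans (add_le_add (norm_add_le _ _) le_rfl)) ?_
      linarith
    · have h1 := (ha3 n j hn).2
      have e1 : x * a n - x = (x - d j) * a n + (d j * a n - d j) - (x - d j) := by noncomm_ring
      rw [e1]
      have h2 := (norm_mul_le (x - d j) (a n)).trans (mul_le_of_le_one_right (norm_nonneg _) (ha2 n))
      refine lt_of_le_of_lt ((norm_sub_le _ _).trans (add_le_add (norm_add_le _ _) le_rfl)) ?_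
      linarith
  have hc : cls ω e ∈ central (Unitization ℂ A) ω := by
    refine cls_mem_central.2 fun b => ?_
    have hb : ∀ n, b * e n - e n * b = inU (b.snd * a n - b.snd) - inU (a n * b.snd - b.snd) := by
      intro n
      conv_lhs => rw [← Unitization.inl_fst_add_inr_snd_eq b]
      have hc' : Unitization.inl b.fst * e n = e n * Unitization.inl b.fst := by
        rw [← Unitization.algebraMap_eq_inl]; exact Algebra.commutes _ _
      simp only [he', inU, Unitization.inr_sub, Unitization.inr_mul, add_mul, mul_add] at hc' ⊢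
      rw [hc']
      abel
    simp only [hb]
    refine squeeze_zero (fun n => norm_nonneg _) (fun n => norm_sub_le _ _) ?_
    simp only [norm_inU]
    simpa using (happrox b.snd).2.add (happrox b.snd).1
  refine ⟨e, hc, fun n => ⟨a n, rfl⟩, fun n => ?_, fun n => by rw [he', norm_inU]; exact ha2 n, ?_⟩
  · rw [he', inU, ← Unitization.inr_star, ha1]
  · refine sub_eq_zero.1 (norm_le_zero_iff.1 ?_)
    show ‖(proj A ω ⟨cls ω e, hc⟩ : 𝓜(ℂ, her A ω)) - 1‖ ≤ 0
    refine ((acts_proj _).sub acts_one).norm_le le_rfl fun x => ?_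
    rw [zero_mul]
    have h0 : cls ω e * embA A ω x = embA A ω x := by
      rw [embA_eq, ← map_mul, cls_eq_iff]
      refine squeeze_zero (fun n => norm_nonneg _) (fun n => ?_) (happrox x).1
      show ‖e n * inU x - inU x‖ ≤ ‖a n * x - x‖
      rw [he', ← norm_inU (a n * x - x)]
      simp only [inU, Unitization.inr_sub, Unitization.inr_mul, le_refl]
    rw [sub_mul, one_mul, h0, sub_self, norm_zero]

/-- Lifts whose two sums obey the bounds, for a homomorphism. -/
theorem exists_damped_gen {B E : Type} [CStarAlgebra B] [CStarAlgebra E] [PartialOrder B]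
    [StarOrderedRing B] [PartialOrder E] [StarOrderedRing E] (F : B →⋆ₐ[ℂ] E) {m : ℕ}
    (x : Fin m → B) (h1 : ‖∑ i, star (F (x i)) * F (x i)‖ ≤ 1) {ε : ℝ} (hε : 0 < ε)
    (h2 : ‖∑ i, F (x i) * star (F (x i))‖ ≤ ε) :
    ∃ y : Fin m → B, (∀ i, F (y i) = F (x i)) ∧
      ‖∑ i, star (y i) * y i‖ ≤ 1 ∧ ‖∑ i, y i * star (y i)‖ ≤ ε := by
  set X := ∑ i, star (x i) * x i with hXdef
  set Y := ∑ i, x i * star (x i) with hYdef
  have hX : 0 ≤ X := Finset.sum_nonneg fun i _ => star_mul_self_nonneg _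
  have hY : 0 ≤ Y := Finset.sum_nonneg fun i _ => mul_star_self_nonneg _
  have pX : F X = ∑ i, star (F (x i)) * F (x i) := by
    rw [hXdef, map_sum]; simp only [map_mul, map_star]
  have pY : F Y = ∑ i, F (x i) * star (F (x i)) := by
    rw [hYdef, map_sum]; simp only [map_mul, map_star]
  obtain ⟨hf, hf1, hfX⟩ := damp_props one_pos hX
  obtain ⟨hg, hg1, hgY⟩ := damp_props hε hY
  set f := cfc (damp 1) X
  set g := cfc (damp ε) Y
  have pf : F f = 1 := map_damp _ one_pos hX.isSelfAdjoint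
    (pX ▸ Finset.sum_nonneg fun i _ => star_mul_self_nonneg _) (pX ▸ h1)
  have pg : F g = 1 := map_damp _ hε hY.isSelfAdjoint
    (pY ▸ Finset.sum_nonneg fun i _ => mul_star_self_nonneg _) (pY ▸ h2)
  refine ⟨fun i => g * x i * f, fun i => by rw [map_mul, map_mul, pf, pg, one_mul, mul_one],
    ?_, ?_⟩
  · rw [CStarAlgebra.norm_le_one_iff_of_nonneg _
      (Finset.sum_nonneg fun i _ => star_mul_self_nonneg _)]
    refine le_trans ?_ (hfX.trans_eq (one_smul ℝ _))
    rw [hXdef, Finset.mul_sum, Finset.sum_mul]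
    refine Finset.sum_le_sum fun i _ => ?_
    have h3 := star_left_conjugate_le_conjugate hg1 (x i * f)
    simp only [star_mul, hf, hg, mul_one, mul_assoc] at h3 ⊢
    exact h3
  · rw [CStarAlgebra.norm_le_iff_le_algebraMap _ hε.le
      (Finset.sum_nonneg fun i _ => mul_star_self_nonneg _), Algebra.algebraMap_eq_smul_one]
    refine le_trans ?_ hgY
    rw [hYdef, Finset.mul_sum, Finset.sum_mul]
    refine Finset.sum_le_sum fun i _ => ?_
    have h3 := star_left_conjugate_le_conjugate hf1 (star (x i) * g)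
    simp only [star_mul, star_star, hf, hg, mul_one, mul_assoc] at h3 ⊢
    exact h3

/-- Lifts whose two sums obey the bounds. -/
theorem exists_damped {m : ℕ} (c : Fin m → FA A ω)
    (h1 : ‖∑ i, star (c i) * c i‖ ≤ 1) {ε : ℝ} (hε : 0 < ε) (h2 : ‖∑ i, c i * star (c i)‖ ≤ ε) :
    ∃ x : Fin m → CentralAlgebra ω (Unitization ℂ A), (∀ i, proj A ω (x i) = c i) ∧
      ‖∑ i, star (x i) * x i‖ ≤ 1 ∧ ‖∑ i, x i * star (x i)‖ ≤ ε := by
  haveI : IsClosed (central (Unitization ℂ A) ω : Set (AOmega (Unitization ℂ A) ω)) :=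
    isClosed_central
  choose x hx using fun i => proj_surjective (c i)
  obtain ⟨y, hy, hy1, hy2⟩ :=
    @exists_damped_gen (CentralAlgebra ω (Unitization ℂ A)) (FA A ω) _ _
      (CStarAlgebra.spectralOrder _) (CStarAlgebra.spectralOrderedRing _)
      (CStarAlgebra.spectralOrder _) (CStarAlgebra.spectralOrderedRing _) (proj A ω) m x
      (by simpa only [hx] using h1) ε hε (by simpa only [hx] using h2)
  exact ⟨y, fun i => (hy i).trans (hx i), hy1, hy2⟩

/-- One index: multiplying by a contraction of `A` and a scalar brings the values into `A`. -/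
theorem value_bounds {m : ℕ} (b : Fin m → Unitization ℂ A) (a₀ : A) (ha₀ : ‖a₀‖ ≤ 1)
    {lam r s : ℝ} (hl : 0 ≤ lam)
    (h1 : ‖∑ i, star (b i) * b i‖ ≤ r) (h2 : ‖∑ i, b i * star (b i)‖ ≤ s) :
    ∃ a : Fin m → A, (∀ l, (lam : ℂ) • (b l * inU a₀) = inU (a l)) ∧
      ‖∑ i, star (a i) * a i‖ ≤ lam * lam * r ∧ ‖∑ i, a i * star (a i)‖ ≤ lam * lam * s := by
  letI := CStarAlgebra.spectralOrder (Unitization ℂ A)
  haveI := CStarAlgebra.spectralOrderedRing (Unitization ℂ A)
  set e : Unitization ℂ A := inU a₀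
  have hen : ‖e‖ ≤ 1 := (norm_inU a₀).trans_le ha₀
  set a : Fin m → A := fun l => (lam : ℂ) • ((b l).fst • a₀ + (b l).snd * a₀)
  have hval : ∀ l, (lam : ℂ) • (b l * e) = inU (a l) := fun l => by
    show (lam : ℂ) • (b l * Unitization.inr a₀) = _
    conv_lhs => rw [← Unitization.inl_fst_add_inr_snd_eq (b l)]
    rw [add_mul, Unitization.inl_mul_inr, ← Unitization.inr_mul, ← Unitization.inr_add,
      ← Unitization.inr_smul]
    rfl
  have hsum : ∀ g : Fin m → A, inU (∑ i, g i) = ∑ i, inU (g i) := fun g =>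
    map_sum (Unitization.inrHom ℂ ℂ A) g _
  refine ⟨a, hval, ?_, ?_⟩
  · rw [← norm_inU, hsum]
    have : ∀ i, inU (star (a i) * a i)
        = (lam * lam) • (star e * (star (b i) * b i) * e) := fun i => by
      rw [inU, Unitization.inr_mul, Unitization.inr_star, ← inU, ← hval]
      simp only [Complex.coe_smul, star_smul, star_trivial, smul_mul_smul_comm, star_mul, mul_assoc]
    rw [Finset.sum_congr rfl fun i _ => this i, ← Finset.smul_sum, ← Finset.sum_mul,
      ← Finset.mul_sum, norm_smul, Real.norm_eq_abs, abs_of_nonneg (mul_nonneg hl hl)]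
    refine mul_le_mul_of_nonneg_left (le_trans ?_ h1) (mul_nonneg hl hl)
    refine norm_mul₃_le.trans ?_
    rw [norm_star]
    exact (mul_le_of_le_one_right (by positivity) hen).trans
      (mul_le_of_le_one_left (norm_nonneg _) hen)
  · rw [← norm_inU, hsum]
    have : ∀ i, inU (a i * star (a i))
        = (lam * lam) • (b i * (e * star e) * star (b i)) := fun i => by
      rw [inU, Unitization.inr_mul, Unitization.inr_star, ← inU, ← hval]
      simp only [Complex.coe_smul, star_smul, star_trivial, smul_mul_smul_comm, star_mul, mul_assoc]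
    rw [Finset.sum_congr rfl fun i _ => this i, ← Finset.smul_sum, norm_smul, Real.norm_eq_abs,
      abs_of_nonneg (mul_nonneg hl hl)]
    refine mul_le_mul_of_nonneg_left (le_trans ?_ h2) (mul_nonneg hl hl)
    refine CStarAlgebra.norm_le_norm_of_nonneg_of_le
      (Finset.sum_nonneg fun i _ => star_right_conjugate_nonneg (mul_star_self_nonneg _) _)
      (Finset.sum_le_sum fun i _ => ?_)
    have h1' : e * star e ≤ 1 := by
      rw [← CStarAlgebra.norm_le_one_iff_of_nonneg _ (mul_star_self_nonneg _),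
        CStarRing.norm_self_mul_star]
      exact mul_le_one₀ hen (norm_nonneg _) hen
    have := star_right_conjugate_le_conjugate h1' (b i)
    simpa using this

omit [PartialOrder A] [StarOrderedRing A] [SeparableSpace A] in
/-- Representing sequences of finite sums of products. -/
theorem cls_sums {m : ℕ} (x : Fin m → CentralAlgebra ω (Unitization ℂ A)) :
    cls ω (∑ i, star (Seq.rep (x i)) * Seq.rep (x i)) = (∑ i, star (x i) * x i : CentralAlgebra ω
      (Unitization ℂ A)).1 ∧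
    cls ω (∑ i, Seq.rep (x i) * star (Seq.rep (x i))) = (∑ i, x i * star (x i) : CentralAlgebra ω
      (Unitization ℂ A)).1 := by
  constructor
  · rw [map_sum, AddSubmonoidClass.coe_finsetSum]
    exact Finset.sum_congr rfl fun i _ => by rw [map_mul, map_star, Seq.cls_rep]; rfl
  · rw [map_sum, AddSubmonoidClass.coe_finsetSum]
    exact Finset.sum_congr rfl fun i _ => by rw [map_mul, map_star, Seq.cls_rep]; rfl

/-- Bounds of the values of lifts. -/
theorem eventually_values {m : ℕ} (x : Fin m → CentralAlgebra ω (Unitization ℂ A))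
    (e : ℕ →ᵇ Unitization ℂ A) (hea : ∀ n, ∃ a : A, e n = inU a) (hen : ∀ n, ‖e n‖ ≤ 1)
    {δ : ℝ} (hδ : 0 < δ) {ε : ℝ} (hε : 0 < ε)
    (h1 : ‖∑ i, star (x i) * x i‖ ≤ 1) (h2 : ‖∑ i, x i * star (x i)‖ ≤ ε) :
    ∀ᶠ n in (ω : Filter ℕ), ∃ a : Fin m → A,
      (∀ l, (((1 / Real.sqrt (1 + δ) : ℝ) : ℂ) • (Seq.rep (x l) * e)) n = inU (a l)) ∧
        ‖∑ i, star (a i) * a i‖ ≤ 1 ∧ ‖∑ i, a i * star (a i)‖ ≤ ε := by
  have hnorm : ∀ (y : CentralAlgebra ω (Unitization ℂ A)) (r : ℝ), ‖y‖ ≤ r → ‖y.1‖ ≤ r :=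
    fun _ _ h => h
  have t1 := tendsto_omegaNorm ω (∑ i, star (Seq.rep (x i)) * Seq.rep (x i))
  have t2 := tendsto_omegaNorm ω (∑ i, Seq.rep (x i) * star (Seq.rep (x i)))
  rw [← norm_cls, (cls_sums x).1] at t1
  rw [← norm_cls, (cls_sums x).2] at t2
  have r2 : ε < ε * (1 + δ) := lt_mul_of_one_lt_right hε (lt_add_of_pos_right 1 hδ)
  filter_upwards [t1.eventually (gt_mem_nhds (lt_of_le_of_lt (hnorm _ _ h1)
      (lt_add_of_pos_right 1 hδ))),
    t2.eventually (gt_mem_nhds (lt_of_le_of_lt (hnorm _ _ h2) r2))] with n n1 n2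
  obtain ⟨a₀, ha₀⟩ := hea n
  have hn0 : ‖a₀‖ ≤ 1 := by rw [← norm_inU, ← ha₀]; exact hen n
  set lam : ℝ := 1 / Real.sqrt (1 + δ)
  have hl2 : lam * lam = 1 / (1 + δ) := by
    simp only [lam, div_mul_div_comm, one_mul, Real.mul_self_sqrt (by linarith : (0 : ℝ) ≤ 1 + δ)]
  simp only [BoundedContinuousFunction.coe_sum, Finset.sum_apply] at n1 n2
  obtain ⟨a, ha, hn1, hn2⟩ := value_bounds (fun i => Seq.rep (x i) n) a₀ hn0 (lam := lam)
    (by positivity) (r := 1 + δ) (s := ε * (1 + δ)) n1.le n2.le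
  refine ⟨a, fun l => ?_, hn1.trans_eq ?_, hn2.trans_eq ?_⟩
  · show (lam : ℂ) • (Seq.rep (x l) n * e n) = _
    rw [ha₀]; exact ha l
  · rw [hl2]; field_simp
  · rw [hl2]; field_simp

/-- Lifts with values in `A` and the exact bounds. -/
theorem exists_const (hω : (ω : Filter ℕ) ≤ cofinite) {m : ℕ} (c : Fin m → FA A ω)
    (h1 : ‖∑ i, star (c i) * c i‖ ≤ 1) {ε : ℝ} (hε : 0 < ε) (h2 : ‖∑ i, c i * star (c i)‖ ≤ ε)
    {δ : ℝ} (hδ : 0 < δ) :
    ∃ (C : Fin m → ℕ →ᵇ Unitization ℂ A) (hC : ∀ l, cls ω (C l) ∈ central (Unitization ℂ A) ω),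
      (∀ l, proj A ω ⟨cls ω (C l), hC l⟩ = (1 / Real.sqrt (1 + δ) : ℝ) • c l) ∧
      ∀ᶠ n in (ω : Filter ℕ), ∃ a : Fin m → A, (∀ l, C l n = inU (a l)) ∧
        ‖∑ i, star (a i) * a i‖ ≤ 1 ∧ ‖∑ i, a i * star (a i)‖ ≤ ε := by
  haveI : IsClosed (central (Unitization ℂ A) ω : Set (AOmega (Unitization ℂ A) ω)) :=
    isClosed_central
  obtain ⟨x', hx', hb1, hb2⟩ := exists_damped c h1 hε h2
  obtain ⟨e, he, hea, hes, hen, hep⟩ := exists_unit_seq (A := A) hω
  set b : Fin m → ℕ →ᵇ Unitization ℂ A := fun i => Seq.rep (x' i)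
  set lam : ℝ := 1 / Real.sqrt (1 + δ)
  set C : Fin m → ℕ →ᵇ Unitization ℂ A := fun l => (lam : ℂ) • (b l * e)
  have eC : ∀ l, cls ω (C l) = (((lam : ℂ) • (x' l * ⟨cls ω e, he⟩) :
      CentralAlgebra ω (Unitization ℂ A)) : AOmega (Unitization ℂ A) ω) := fun l => by
    rw [show C l = (lam : ℂ) • (b l * e) from rfl, map_smul, map_mul, Seq.cls_rep]
    rfl
  have hC : ∀ l, cls ω (C l) ∈ central (Unitization ℂ A) ω := fun l => (eC l).symm ▸ SetLike.coe_mem _
  refine ⟨C, hC, fun l => ?_, ?_⟩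
  · rw [show (⟨cls ω (C l), hC l⟩ : CentralAlgebra ω (Unitization ℂ A))
      = (lam : ℂ) • (x' l * ⟨cls ω e, he⟩) from Subtype.ext (eC l), map_smul, map_mul, hep, mul_one,
      hx']
    exact Complex.coe_smul lam (c l)
  · exact eventually_values x' e hea hen hδ hε hb1 hb2

end Constants

end

end Vale.Agent.P095.All.TraceDim
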