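import Vale.Agent.P095.All.TraceDim.Frame
import Vale.Agent.P095.All.TraceDim.Diag

/-!
# P095, traces to states: the relations as terms
-/

namespace Vale.Agent.P095.All.TraceDim

open Vale.Agent.P101.KR Vale.Agent.P095.Amen
open scoped MultiplierAlgebra

noncomputable section

variable {k M m : ℕ}

/-- A finite sum. -/
def tsumT : {n : ℕ} → (Fin n → Term k) → Term k
  | 0, _ => .smul 0 .one
  | _ + 1, f => .add (f 0) (tsumT fun i => f i.succ)

theorem eval_tsumT {F : Type} [CStarAlgebra F] (x : Fin k → F) :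
    ∀ {n : ℕ} (f : Fin n → Term k), (tsumT f).eval x = ∑ i, (f i).eval x
  | 0, _ => by simp [tsumT, Term.eval]
  | _ + 1, f => by simp [tsumT, Term.eval, eval_tsumT x, Fin.sum_univ_succ]

/-- A difference. -/
def tsubT (a b : Term k) : Term k := .add a (.smul (-1) b)

theorem eval_tsubT {F : Type} [CStarAlgebra F] (x : Fin k → F) (a b : Term k) :
    (tsubT a b).eval x = a.eval x - b.eval x := by
  simp [tsubT, Term.eval, sub_eq_add_neg]

/-- The relations. -/
abbrev RelIdx (M : ℕ) : Type := (Fin M × Fin M) ⊕ ((Fin M ⊕ Fin M) ⊕ Fin 3)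

/-- The index of the defect. -/
def mainIdx : RelIdx M := Sum.inr (Sum.inr 2)

/-- A block, as a term. -/
def tBlk (vr : Var M m → Term k) (a : Fin M) : Term k := .mul (.adj (vr (vR a))) (vr (vR a))

/-- All blocks, as a term. -/
def tTot (vr : Var M m → Term k) : Term k := tsumT (tBlk vr)

/-- The carrier, as a term. -/
def tCarry (vr : Var M m → Term k) (vc : Fin m → Term k) (hM : 0 < M) : Term k :=
  .mul (tBlk vr ⟨0, hM⟩) (tsumT fun i => .mul (vr (vU i)) (vc i))

/-- The relations as terms. -/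
def relTerm (vr : Var M m → Term k) (vc : Fin m → Term k) (hM : 0 < M) : RelIdx M → Term k
  | Sum.inl (a, b) => if a = b then .smul 0 .one else .mul (tBlk vr a) (tBlk vr b)
  | Sum.inr (Sum.inl (Sum.inl a)) => tsubT (.mul (.adj (vr (vX a))) (vr (vX a)))
      (.mul (tBlk vr ⟨0, hM⟩) (tBlk vr ⟨0, hM⟩))
  | Sum.inr (Sum.inl (Sum.inr a)) => tsubT (.mul (vr (vX a)) (.adj (vr (vX a))))
      (.mul (tBlk vr a) (tBlk vr a))
  | Sum.inr (Sum.inr ⟨0, _⟩) => tsubT (.mul (.adj (vr vV)) (vr vV)) (tsubT .one (tTot vr))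
  | Sum.inr (Sum.inr ⟨1, _⟩) =>
      tsubT (.add (.mul (vr vV) (.adj (vr vV))) (.mul (.adj (vr vG)) (vr vG)))
        (.mul (tBlk vr ⟨0, hM⟩) (tBlk vr ⟨0, hM⟩))
  | Sum.inr (Sum.inr ⟨_ + 2, _⟩) => tsubT (.mul (.adj (tCarry vr vc hM)) (tCarry vr vc hM))
      (.mul (.mul (.mul (.mul (tTot vr) (tTot vr)) (tTot vr)) (tTot vr))
        (tsumT fun i => .mul (.adj (vc i)) (vc i)))

variable {F : Type} [CStarAlgebra F]

/-- The values of the relations. -/
def relVal (x : Var M m → F) (c : Fin m → F) (hM : 0 < M) : RelIdx M → F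
  | Sum.inl (a, b) => if a = b then 0 else blk x a * blk x b
  | Sum.inr (Sum.inl (Sum.inl a)) =>
      star (x (vX a)) * x (vX a) - blk x ⟨0, hM⟩ * blk x ⟨0, hM⟩
  | Sum.inr (Sum.inl (Sum.inr a)) => x (vX a) * star (x (vX a)) - blk x a * blk x a
  | Sum.inr (Sum.inr ⟨0, _⟩) => star (x vV) * x vV - (1 - tot x)
  | Sum.inr (Sum.inr ⟨1, _⟩) =>
      x vV * star (x vV) + star (x vG) * x vG - blk x ⟨0, hM⟩ * blk x ⟨0, hM⟩
  | Sum.inr (Sum.inr ⟨_ + 2, _⟩) => defect x hM c

theorem eval_relTerm (vr : Var M m → Term k) (vc : Fin m → Term k) (hM : 0 < M) (z : Fin k → F) :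
    ∀ q, (relTerm vr vc hM q).eval z
      = relVal (fun i => (vr i).eval z) (fun i => (vc i).eval z) hM q
  | Sum.inl (a, b) => by
    simp only [relTerm, relVal]
    split_ifs <;> simp [Term.eval, tBlk, blk]
  | Sum.inr (Sum.inl (Sum.inl a)) => by simp [relTerm, relVal, eval_tsubT, Term.eval, tBlk, blk]
  | Sum.inr (Sum.inl (Sum.inr a)) => by simp [relTerm, relVal, eval_tsubT, Term.eval, tBlk, blk]
  | Sum.inr (Sum.inr ⟨0, _⟩) => by
    simp [relTerm, relVal, eval_tsubT, Term.eval, tBlk, blk, tTot, tot, eval_tsumT]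
  | Sum.inr (Sum.inr ⟨1, _⟩) => by simp [relTerm, relVal, eval_tsubT, Term.eval, tBlk, blk]
  | Sum.inr (Sum.inr ⟨_ + 2, _⟩) => by
    simp [relTerm, relVal, eval_tsubT, eval_tsumT, Term.eval, tBlk, blk, tTot, tot, tCarry, carry,
      defect, pow_succ, mul_assoc]

theorem relVal_eq_zero {x : Var M m → F} {hM : 0 < M} (h : Rel x hM) (c : Fin m → F) :
    ∀ q, q ≠ mainIdx → relVal x c hM q = 0
  | Sum.inl (a, b), _ => by
    simp only [relVal]
    split_ifs with hab
    · rfl
    · exact h.orth a b hab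
  | Sum.inr (Sum.inl (Sum.inl a)), _ => sub_eq_zero.2 (h.left a)
  | Sum.inr (Sum.inl (Sum.inr a)), _ => sub_eq_zero.2 (h.right a)
  | Sum.inr (Sum.inr ⟨0, _⟩), _ => sub_eq_zero.2 h.compl
  | Sum.inr (Sum.inr ⟨1, _⟩), _ => sub_eq_zero.2 h.room
  | Sum.inr (Sum.inr ⟨2, _⟩), hq => absurd rfl hq

theorem rel_of_relVal {x : Var M m → F} {hM : 0 < M} {c : Fin m → F}
    (h : ∀ q, q ≠ mainIdx → relVal x c hM q = 0) : Rel x hM where
  orth a b hab := by simpa [relVal, hab] using h (Sum.inl (a, b)) (by simp [mainIdx])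
  left a := sub_eq_zero.1 (h (Sum.inr (Sum.inl (Sum.inl a))) (by simp [mainIdx]))
  right a := sub_eq_zero.1 (h (Sum.inr (Sum.inl (Sum.inr a))) (by simp [mainIdx]))
  compl := sub_eq_zero.1 (h (Sum.inr (Sum.inr 0)) (by simp [mainIdx]))
  room := sub_eq_zero.1 (h (Sum.inr (Sum.inr 1)) (by simp [mainIdx]))

/-- The number of variables and constants. -/
abbrev nVar (M m : ℕ) : ℕ := Fintype.card (Var M m ⊕ Fin m)

/-- The position of a variable. -/
def slotOf : Fin (nVar M m) → Var M m ⊕ Fin m := (Fintype.equivFin (Var M m ⊕ Fin m)).symm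

/-- An assignment. -/
def asgn {G : Type} (x : Var M m → G) (c : Fin m → G) : Fin (nVar M m) → G :=
  fun u => (slotOf u).elim x c

/-- The relations, all variables in place. -/
def stdTerm (M m : ℕ) (hM : 0 < M) (q : RelIdx M) : Term (nVar M m) :=
  relTerm (fun i => .var (Fintype.equivFin (Var M m ⊕ Fin m) (Sum.inl i)))
    (fun i => .var (Fintype.equivFin (Var M m ⊕ Fin m) (Sum.inr i))) hM q

theorem eval_stdTerm (x : Var M m → F) (c : Fin m → F) (hM : 0 < M) (q : RelIdx M) :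
    (stdTerm M m hM q).eval (asgn x c) = relVal x c hM q := by
  rw [stdTerm, eval_relTerm]
  congr 1 <;> funext i <;> simp [Term.eval, asgn, slotOf]

variable {A : Type} [NonUnitalCStarAlgebra A] {ω : Ultrafilter ℕ}

/-- Terms in multipliers act by the terms in the elements. -/
theorem acts_eval {M₀ : Fin k → 𝓜(ℂ, her A ω)} {x : Fin k → AOmega (Unitization ℂ A) ω}
    (h : ∀ u, Acts (M₀ u) (x u)) : ∀ t : Term k, Acts (t.eval M₀) (t.eval x)
  | .var i => h i
  | .one => acts_one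
  | .add a b => (acts_eval h a).add (acts_eval h b)
  | .mul a b => (acts_eval h a).mul (acts_eval h b)
  | .smul c a => (acts_eval h a).smul c
  | .adj a => (acts_eval h a).star

end

end Vale.Agent.P095.All.TraceDim
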