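import Vale.Agent.P095.All.TraceDim.CP
import Vale.Agent.P095.All.TraceDim.Count
import Vale.Agent.P095.All.TraceDim.Terms
import Vale.Agent.P095.All.TraceDim.Lift
import Vale.Agent.P095.All.FA.Targets
import Vale.Agent.P101.Bridge.AllDrops

/-!
# P095, traces to states: assembly

An element which every trace makes small is, by Cuntz and Pedersen, nearly a sum `∑ c* c` with
`∑ c c*` small; random matrices compress it into one of `M` equivalent orthogonal pieces.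
-/

namespace Vale.Agent.P095.All.TraceDim

open Filter Topology BoundedContinuousFunction Vale.Agent.P101.KR Vale.Agent.P095.Amen
open Vale.Agent.P101.Bridge TopologicalSpace
open scoped MultiplierAlgebra CStarAlgebra ComplexOrder

noncomputable section

section Finish

variable {F : Type} [CStarAlgebra F]

theorem commute_of_mem_cl {u : F} (hu : ∀ {v : F}, v ∈ ({u} : Set F) → star v = v) {s : Set F}
    (h : ∀ y ∈ s, Commute u y) {y : F} (hy : y ∈ Cl s) : Commute u y := by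
  have hle : Cl s ≤ StarSubalgebra.centralizer ℂ ({u} : Set F) := by
    refine StarSubalgebra.topologicalClosure_minimal (StarAlgebra.adjoin_le ?_) ?_
    · intro y hy
      rw [SetLike.mem_coe, StarSubalgebra.mem_centralizer_iff]
      intro g hg
      rw [Set.mem_singleton_iff] at hg
      subst hg
      exact ⟨h y hy, by rw [hu rfl]; exact h y hy⟩
    · rw [StarSubalgebra.coe_centralizer]
      exact Set.isClosed_centralizer _
  exact ((StarSubalgebra.mem_centralizer_iff ℂ).1 (hle hy) u rfl).1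

theorem norm_tot_le {M m : ℕ} {x : Var M m → F} {hM : 0 < M} (h : Rel x hM) : ‖tot x‖ ≤ 1 := by
  letI := CStarAlgebra.spectralOrder F
  haveI := CStarAlgebra.spectralOrderedRing F
  exact (CStarAlgebra.norm_le_one_iff_of_nonneg _
    (Finset.sum_nonneg fun a _ => star_mul_self_nonneg _)).2
    (sub_nonneg.1 (h.compl ▸ star_mul_self_nonneg _))

/-- Exact relations and a small defect give a small state. -/
theorem finish {M m : ℕ} (hM : 0 < M) {θ : ℝ} (hθ : 0 < θ) {s : Set F} (hs : s.Countable)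
    {t : Set F} (hst : CommSets s t) {z : F} (hz : PosIn (Cl s) z) (hz1 : SqLe z 1)
    (c : Fin m → F) (hc : ∀ i, c i ∈ Cl s) (hcz : ‖∑ i, star (c i) * c i - z‖ ≤ θ / 4)
    (x : Var M m → F) (hx : Rel x hM) (hdef : ‖defect x hM c‖ ≤ θ / 4)
    (hcomm : ∀ i, ∀ y ∈ s ∪ t, Commute (x i) y ∧ Commute (x i) (star y)) :
    ∃ q : Set F, q.Countable ∧ s ⊆ q ∧ CommSets q t ∧
      ∀ d : Dim (Cl q), d.d (cut θ z) ≤ 2 / M := by
  set q := s ∪ Set.range x
  have hsq : s ⊆ q := Set.subset_union_left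
  have hle : Cl s ≤ Cl q := StarSubalgebra.topologicalClosure_mono (StarAlgebra.adjoin_mono hsq)
  have hxq : ∀ i, x i ∈ Cl q := fun i => StarSubalgebra.le_topologicalClosure _
    (StarAlgebra.subset_adjoin ℂ q (Set.mem_union_right _ ⟨i, rfl⟩))
  refine ⟨q, hs.union (Set.countable_range x), hsq, ?_, fun d => ?_⟩
  · rintro a (ha | ⟨i, rfl⟩) y hy
    · exact hst a ha y hy
    · exact hcomm i y (Or.inr hy)
  have htotz : Commute (tot x) z := by
    refine commute_of_mem_cl (fun {v} hv => ?_) (fun y hy => ?_) hz.1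
    · rw [Set.mem_singleton_iff.1 hv]
      simp [tot, blk, star_sum]
    · refine Commute.sum_left _ _ _ fun a _ => ?_
      have h1 := hcomm (vR a) y (Or.inl hy)
      have h2 : Commute (star (x (vR a))) y := by
        have := h1.2.star_star
        rwa [star_star] at this
      exact h2.mul_left h1.1
  have hκ : ‖star (carry x hM c) * carry x hM c - tot x ^ 4 * z‖ ≤ θ / 2 := by
    have e : star (carry x hM c) * carry x hM c - tot x ^ 4 * z
        = defect x hM c + tot x ^ 4 * (∑ i, star (c i) * c i - z) := by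
      simp only [defect, mul_sub]
      abel
    rw [e]
    refine (norm_add_le _ _).trans ?_
    have h4 : ‖tot x ^ 4‖ ≤ 1 :=
      (norm_pow_le' _ (by norm_num)).trans (pow_le_one₀ (norm_nonneg _) (norm_tot_le hx))
    have := (norm_mul_le (tot x ^ 4) (∑ i, star (c i) * c i - z)).trans
      (mul_le_of_le_one_left (norm_nonneg _) h4)
    linarith
  exact (count hM (fun a => x (vR a)) (fun a => x (vX a)) (x vV) (x vG) (carry x hM c) z
    (fun a => hxq _) (fun a => hxq _) (hxq _)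
    (mul_mem (mul_mem (star_mem (hxq _)) (hxq _))
      (sum_mem fun i _ => mul_mem (hxq _) (hle (hc i))))
    (hxq _) (hz.mono hle) hz1 hx.orth hx.left hx.right hx.compl hx.room htotz rfl hθ hκ d).2

theorem Rel.map {M m : ℕ} {hM : 0 < M} {x : Var M m → F} (h : Rel x hM) {E : Type}
    [CStarAlgebra E] (f : F →⋆ₐ[ℂ] E) : Rel (fun i => f (x i)) hM where
  orth a b hab := by simpa [blk, map_mul, map_star] using congrArg f (h.orth a b hab)
  left a := by simpa [blk, map_mul, map_star] using congrArg f (h.left a)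
  right a := by simpa [blk, map_mul, map_star] using congrArg f (h.right a)
  compl := by simpa [blk, tot, map_mul, map_star] using congrArg f h.compl
  room := by simpa [blk, map_mul, map_star] using congrArg f h.room

theorem exists_lifts {B : Type} [CStarAlgebra B] (p : B →⋆ₐ[ℂ] F) (hp : Function.Surjective p)
    {ι : Type} (x : ι → F) {R : ℝ} (hx : ∀ i, ‖x i‖ ≤ R) :
    ∃ X : ι → B, (∀ i, p (X i) = x i) ∧ ∀ i, ‖X i‖ ≤ R := by
  choose X₀ h0 using fun i => hp (x i)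
  choose X h1 h2 using fun i => lift_small p (X₀ i)
  exact ⟨X, fun i => (h1 i).trans (h0 i), fun i => (h2 i).trans ((h0 i).symm ▸ hx i)⟩

theorem posIn_of_sqLe {s : Set F} {z : Cl s} (hz0 : SqLe 0 (z : F)) : PosIn (Cl s) (z : F) := by
  letI := CStarAlgebra.spectralOrder (Cl s)
  haveI := CStarAlgebra.spectralOrderedRing (Cl s)
  refine posIn_coe ?_
  have hsa : IsSelfAdjoint z := Subtype.ext (by
    obtain ⟨c, hc⟩ := hz0
    rw [StarMemClass.coe_star]
    rw [sub_zero] at hc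
    rw [hc, star_mul, star_star])
  rw [StarOrderedRing.nonneg_iff_spectrum_nonneg (R := ℝ) z]
  exact spectrum_cl_nonneg s z hz0

/-- Scaling a nearly correct family to a contractive one. -/
theorem scaled {m : ℕ} (c : Fin m → F) {z : F} (hz0 : SqLe 0 z) (hz1 : SqLe z 1) {η : ℝ}
    (hη : 0 < η) (hcz : ‖∑ i, star (c i) * c i - z‖ ≤ η) {ε : ℝ}
    (hcc : ‖∑ i, c i * star (c i)‖ ≤ ε + η) {δ : ℝ} (hδ : 0 < δ) :
    ∃ c' : Fin m → F, (∃ r : ℝ, ∀ l, c' l = r • c l) ∧ ‖∑ i, star (c' i) * c' i‖ ≤ 1 ∧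
      ‖∑ i, c' i * star (c' i)‖ ≤ ε + η ∧
      ‖∑ i, star ((1 / Real.sqrt (1 + δ) : ℝ) • c' i) * ((1 / Real.sqrt (1 + δ) : ℝ) • c' i) - z‖
        ≤ 2 * η + δ := by
  have hzn : ‖z‖ ≤ 1 := by
    letI := CStarAlgebra.spectralOrder F
    haveI := CStarAlgebra.spectralOrderedRing F
    exact (CStarAlgebra.norm_le_one_iff_of_nonneg _ (sqLe_iff.1 hz0)).2 (sqLe_iff.1 hz1)
  set lam : ℝ := 1 / Real.sqrt (1 + η)
  set μ : ℝ := 1 / Real.sqrt (1 + δ)
  have hl2 : lam * lam = 1 / (1 + η) := by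
    simp only [lam, div_mul_div_comm, one_mul, Real.mul_self_sqrt (by linarith : (0 : ℝ) ≤ 1 + η)]
  have hμ2 : μ * μ = 1 / (1 + δ) := by
    simp only [μ, div_mul_div_comm, one_mul, Real.mul_self_sqrt (by linarith : (0 : ℝ) ≤ 1 + δ)]
  have hsc : ∀ (r : ℝ) (p : Fin m → F), (∑ i, star (r • p i) * (r • p i))
      = (r * r) • ∑ i, star (p i) * p i := fun r p => by
    simp only [star_smul, star_trivial, smul_mul_smul_comm, Finset.smul_sum]
  have hsc' : ∀ (r : ℝ) (p : Fin m → F), (∑ i, r • p i * star (r • p i))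
      = (r * r) • ∑ i, p i * star (p i) := fun r p => by
    simp only [star_smul, star_trivial, smul_mul_smul_comm, Finset.smul_sum]
  refine ⟨fun l => lam • c l, ⟨lam, fun _ => rfl⟩, ?_, ?_, ?_⟩
  · rw [hsc, norm_smul, hl2, Real.norm_eq_abs, abs_of_pos (by positivity), div_mul_eq_mul_div,
      one_mul, div_le_one (by linarith)]
    have := norm_le_norm_add_norm_sub' (∑ i, star (c i) * c i) z
    linarith
  · rw [hsc', norm_smul, hl2, Real.norm_eq_abs, abs_of_pos (by positivity)]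
    exact (mul_le_of_le_one_left (norm_nonneg _)
      ((div_le_one (by linarith)).2 (by linarith))).trans hcc
  · rw [hsc, hsc, smul_smul]
    set S := ∑ i, star (c i) * c i
    set r := μ * μ * (lam * lam)
    have hr0 : 0 ≤ r := mul_nonneg (mul_self_nonneg μ) (mul_self_nonneg lam)
    have hpd : 0 ≤ δ * η := mul_nonneg hδ.le hη.le
    have hr1 : r ≤ 1 := by
      simp only [r, hμ2, hl2, div_mul_div_comm, one_mul]
      rw [div_le_one (by positivity)]
      nlinarith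
    have hr2 : 1 - δ - η ≤ r := by
      simp only [r, hμ2, hl2, div_mul_div_comm, one_mul]
      rw [le_div_iff₀ (by positivity)]
      nlinarith [sq_nonneg (δ + η), mul_nonneg hpd (add_nonneg hδ.le hη.le)]
    rw [show r • S - z = r • (S - z) - (1 - r) • z by module]
    refine (norm_sub_le _ _).trans ?_
    rw [norm_smul, norm_smul, Real.norm_eq_abs, Real.norm_eq_abs, abs_of_nonneg hr0,
      abs_of_nonneg (sub_nonneg.2 hr1)]
    have e1 := (mul_le_of_le_one_left (norm_nonneg _) hr1).trans hcz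
    have e2 := mul_le_of_le_one_right (sub_nonneg.2 hr1) hzn
    linarith

theorem smul_mem_cl {s : Set F} {x : F} (r : ℝ) (h : x ∈ Cl s) : r • x ∈ Cl s := by
  rw [← Complex.coe_smul]
  exact SMulMemClass.smul_mem _ h

theorem le_of_forall_level {x e a : ℝ} (h : ∀ n : ℕ, x ≤ a * (e + 1 / ((n : ℝ) + 1))) :
    x ≤ a * e := by
  have hlim : Tendsto (fun n : ℕ => a * (e + 1 / ((n : ℝ) + 1))) atTop (𝓝 (a * e)) := by
    simpa using (tendsto_one_div_add_atTop_nhds_zero_nat.const_add e).const_mul a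
  exact ge_of_tendsto' hlim h

end Finish

variable {A : Type} [NonUnitalCStarAlgebra A] {ω : Ultrafilter ℕ}

theorem comm_inA [PartialOrder A] [StarOrderedRing A] (y : FA A ω) (a : A) :
    Commute ((FAlg A ω).subtype y) (inA a) := by
  obtain ⟨w, rfl⟩ := proj_surjective y
  have h1 : Acts ((proj A ω w : 𝓜(ℂ, her A ω)) * inA a) (w.1 * embA A ω a) :=
    (acts_proj w).mul (acts_inA a)
  have h2 : Acts (inA a * (proj A ω w : 𝓜(ℂ, her A ω))) (embA A ω a * w.1) :=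
    (acts_inA a).mul (acts_proj w)
  rw [embA_central] at h2
  exact toMult_ext A ω (fun v => (h1 v).1.trans (h2 v).1.symm)
    fun v => (h1 v).2.trans (h2 v).2.symm

/-- One fibre: for constants in `A`, central elements satisfying the relations on `A`. -/
theorem fibre [PartialOrder A] [StarOrderedRing A] {M m N : ℕ} (hM : 0 < M) (hN : 0 < N)
    [NeZero (M * N)] (D : DropDataN (M * N) (FA A ω)) (a : Fin m → A)
    (Y : Fin m → CStarMatrix (Fin (M * N)) (Fin (M * N)) ℂ)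
    (hrow : ∀ i, ∀ p p' : Fin (M * N), N ≤ (p : ℕ) → Y i p p' = 0) {R : ℝ} (hR : ∀ i, ‖Y i‖ ≤ R)
    {κ : ℝ} (hκ : ‖star (rowMat a Y) * rowMat a Y - diagMat (∑ i, star (a i) * a i)‖ ≤ κ) :
    ∃ X : Var M m → CentralAlgebra ω (Unitization ℂ A), (∀ i, ‖X i‖ ≤ max 1 R) ∧
      ∀ q b, ‖(stdTerm M m hM q).eval (asgn (fun i => (X i : AOmega (Unitization ℂ A) ω))
        (fun l => embA A ω (a l))) * embA A ω b‖ ≤ (if q = mainIdx then κ else 0) * ‖b‖ := by
  haveI : IsClosed (central (Unitization ℂ A) ω : Set (AOmega (Unitization ℂ A) ω)) :=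
    isClosed_central
  obtain ⟨x, hx, hrel, hmain⟩ := frame hM hN D Y hrow hR
  obtain ⟨X, hX1, hX2⟩ := exists_lifts (proj A ω) proj_surjective x hx
  refine ⟨X, hX2, fun q b => ?_⟩
  set f := (FAlg A ω).subtype
  have hacts : ∀ u, Acts (asgn (fun i => f (x i)) (fun l => inA (ω := ω) (a l)) u)
      (asgn (fun i => (X i : AOmega (Unitization ℂ A) ω)) (fun l => embA A ω (a l)) u) := fun u => by
    unfold asgn
    rcases slotOf u with i | l
    · exact (congrArg (fun y : FA A ω => Acts (f y) (X i).1) (hX1 i)).mp (acts_proj (X i))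
    · exact acts_inA (a l)
  refine ((acts_eval hacts (stdTerm M m hM q)).norm_mul_le b).trans ?_
  refine mul_le_mul_of_nonneg_right ?_ (norm_nonneg b)
  rw [eval_stdTerm]
  split_ifs with hq
  · subst hq
    exact hmain 𝓜(ℂ, her A ω) f A inA comm_inA a κ hκ
  · rw [relVal_eq_zero (hrel.map f) _ q hq, norm_zero]

/-- The elements in `F_ω(A)`. -/
theorem solve [PartialOrder A] [StarOrderedRing A] [SeparableSpace A]
    (hω : (ω : Filter ℕ) ≤ cofinite) {K : ℝ} (hK : 0 ≤ K)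
    (hrand : ∀ (m M : ℕ) (a : Fin m → A) (ε : ℝ), 0 < M → 0 < ε → (M : ℝ) * ε ≤ 1 →
      ‖∑ i, star (a i) * a i‖ ≤ 1 → ‖∑ i, a i * star (a i)‖ ≤ ε →
      ∃ (N : ℕ) (Y : Fin m → CStarMatrix (Fin (M * N)) (Fin (M * N)) ℂ), 0 < N ∧
        (∀ i, ∀ p p' : Fin (M * N), N ≤ (p : ℕ) → Y i p p' = 0) ∧
        (∀ i, ‖Y i‖ ≤ K * Real.sqrt M) ∧
        ‖star (rowMat a Y) * rowMat a Y - diagMat (∑ i, star (a i) * a i)‖ ≤
          K * Real.sqrt ((M : ℝ) * ε))
    (hdrop : ∀ (L : ℕ) [NeZero L], 2 ≤ L → Nonempty (DropDataN L (FA A ω)))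
    {M : ℕ} (hM : 2 ≤ M) {ε : ℝ} (hε : 0 < ε) (hMε : (M : ℝ) * ε ≤ 1) {m : ℕ}
    (c : Fin m → FA A ω) (h1 : ‖∑ i, star (c i) * c i‖ ≤ 1) (h2 : ‖∑ i, c i * star (c i)‖ ≤ ε)
    {δ : ℝ} (hδ : 0 < δ) (U : Set (FA A ω)) (hU : U.Countable) :
    ∃ x : Var M m → FA A ω, Rel x (two_pos.trans_le hM) ∧
      ‖defect x (two_pos.trans_le hM) (fun l => (1 / Real.sqrt (1 + δ) : ℝ) • c l)‖
        ≤ K * Real.sqrt ((M : ℝ) * ε) ∧
      ∀ i, ∀ y ∈ U, Commute (x i) y := by
  have hM0 : 0 < M := two_pos.trans_le hM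
  set κ := K * Real.sqrt ((M : ℝ) * ε)
  have hκ : 0 ≤ κ := by positivity
  set R := max 1 (K * Real.sqrt M)
  obtain ⟨C, hC, hCp, hval⟩ := exists_const hω c h1 hε h2 hδ
  have hfib : ∀ n, ∃ X : Var M m → CentralAlgebra ω (Unitization ℂ A), (∀ i, ‖X i‖ ≤ R) ∧
      ((∃ a : Fin m → A, (∀ l, C l n = inU (a l)) ∧ ‖∑ i, star (a i) * a i‖ ≤ 1 ∧
        ‖∑ i, a i * star (a i)‖ ≤ ε) →
      ∀ q b, ‖(stdTerm M m hM0 q).eval (asgn (fun i => (X i : AOmega (Unitization ℂ A) ω))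
        (fun l => emb ω (C l n))) * embA A ω b‖ ≤ (if q = mainIdx then κ else 0) * ‖b‖) := by
    intro n
    by_cases hn : ∃ a : Fin m → A, (∀ l, C l n = inU (a l)) ∧
        ‖∑ i, star (a i) * a i‖ ≤ 1 ∧ ‖∑ i, a i * star (a i)‖ ≤ ε
    · obtain ⟨a, ha, ha1, ha2⟩ := hn
      obtain ⟨N, Y, hN, hrow, hY, hS⟩ := hrand m M a ε hM0 hε hMε ha1 ha2
      haveI : NeZero (M * N) := ⟨(Nat.mul_pos hM0 hN).ne'⟩
      obtain ⟨D⟩ := hdrop (M * N) (le_trans hM (Nat.le_mul_of_pos_right M hN))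
      obtain ⟨X, hX1, hX2⟩ := fibre hM0 hN D a Y hrow hY hS
      refine ⟨X, hX1, fun _ q b => ?_⟩
      have e : (fun l => emb ω (C l n)) = fun l => embA A ω (a l) := funext fun l => by
        rw [ha l]; rfl
      rw [e]
      exact hX2 q b
    · exact ⟨fun _ => 0, fun _ => by
        rw [norm_zero]; exact le_trans zero_le_one (le_max_left _ _), fun h => absurd h hn⟩
  choose X hX1 hX2 using hfib
  obtain ⟨g, hg⟩ := (hU.insert (0 : FA A ω)).exists_eq_range (Set.insert_nonempty _ _)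
  choose w hw using fun j => proj_surjective (g j)
  let eq := (Fintype.equivFin (RelIdx M)).symm
  obtain ⟨Y, hY1, hY2⟩ := diag hω (slotOf (M := M) (m := m))
    (fun q => stdTerm M m hM0 (eq q)) (fun q => if eq q = mainIdx then κ else 0)
    (fun q => by split_ifs <;> positivity) (le_trans zero_le_one (le_max_left _ _))
    X hX1 C hC (fun j => Seq.rep (w j)) (hval.mono fun n hn q b => hX2 n hn (eq q) b)
  set x : Var M m → FA A ω := fun i => proj A ω (Y i)
  set cc : Fin m → FA A ω := fun l => (1 / Real.sqrt (1 + δ) : ℝ) • c l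
  have hall : ∀ q, ‖relVal x cc hM0 q‖ ≤ if q = mainIdx then κ else 0 := fun q => by
    have h := hY2 (eq.symm q)
    simp only [Equiv.apply_symm_apply] at h
    rw [← eval_stdTerm]
    refine le_of_eq_of_le ?_ h
    congr 2
    funext u
    show (slotOf u).elim x cc = _
    rcases slotOf u with i | l
    · rfl
    · simp only [Sum.elim_inr, cc, hCp]
  refine ⟨x, rel_of_relVal (c := cc) fun q hq => norm_le_zero_iff.1 ?_, ?_, fun i y hy => ?_⟩
  · simpa [hq] using hall q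
  · exact (hall mainIdx).trans_eq (if_pos rfl)
  · obtain ⟨j, rfl⟩ : y ∈ Set.range g := hg ▸ Set.mem_insert_of_mem _ hy
    rw [← hw j]
    refine Commute.map ?_ (proj A ω)
    refine Subtype.ext ?_
    have := (hY1 i j).eq
    rwa [Seq.cls_rep] at this

theorem level_main [PartialOrder A] [StarOrderedRing A] [SeparableSpace A]
    (hω : (ω : Filter ℕ) ≤ cofinite) {K : ℝ} (hK : 0 ≤ K)
    (hrand : ∀ (m M : ℕ) (a : Fin m → A) (ε : ℝ), 0 < M → 0 < ε → (M : ℝ) * ε ≤ 1 →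
      ‖∑ i, star (a i) * a i‖ ≤ 1 → ‖∑ i, a i * star (a i)‖ ≤ ε →
      ∃ (N : ℕ) (Y : Fin m → CStarMatrix (Fin (M * N)) (Fin (M * N)) ℂ), 0 < N ∧
        (∀ i, ∀ p p' : Fin (M * N), N ≤ (p : ℕ) → Y i p p' = 0) ∧
        (∀ i, ‖Y i‖ ≤ K * Real.sqrt M) ∧
        ‖star (rowMat a Y) * rowMat a Y - diagMat (∑ i, star (a i) * a i)‖ ≤
          K * Real.sqrt ((M : ℝ) * ε))
    (hdrop : ∀ (L : ℕ) [NeZero L], 2 ≤ L → Nonempty (DropDataN L (FA A ω)))
    {θ : ℝ} (hθ : 0 < θ) {M : ℕ} (hM : 2 ≤ M) {ε' : ℝ} (hε' : 0 < ε') (hMε : (M : ℝ) * ε' ≤ 1)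
    (hκ : K * Real.sqrt ((M : ℝ) * ε') ≤ θ / 4)
    {s : Set (FA A ω)} (hs : s.Countable) (z : Cl s) (hz : PosIn (Cl s) (z : FA A ω))
    (hz1 : SqLe (z : FA A ω) 1) {ε : ℝ} (hε : 0 ≤ ε)
    (hτ : ∀ τ : Cl s →ₗ[ℂ] ℂ, IsTrace (Cl s) τ → (τ z).re ≤ ε) {η : ℝ} (hη : 0 < η)
    (hη1 : ε + η ≤ ε') (hη2 : η ≤ θ / 16) {δ : ℝ} (hδ : 0 < δ) (hδ2 : δ ≤ θ / 16)
    {t : Set (FA A ω)} (ht : t.Countable) (hst : CommSets s t) :
    ∃ q : Set (FA A ω), q.Countable ∧ s ⊆ q ∧ CommSets q t ∧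
      ∀ d : Dim (Cl q), d.d (cut θ (z : FA A ω)) ≤ 2 / M := by
  obtain ⟨m, c, hc, hcz, hcc⟩ := exists_factor s z hz.sqLe hε hτ hη
  obtain ⟨c', ⟨r, hr⟩, hb1, hb2, hclose⟩ := scaled c hz.sqLe hz1 hη hcz hcc hδ
  obtain ⟨x, hx, hdef, hcomm⟩ := solve hω hK hrand hdrop hM hε' hMε c' hb1
    (hb2.trans hη1) hδ ((s ∪ t) ∪ star '' (s ∪ t))
    ((hs.union ht).union ((hs.union ht).image _))
  have hclose' := hclose.trans (show 2 * η + δ ≤ θ / 4 by linarith)
  exact finish (two_pos.trans_le hM) hθ hs hst hz hz1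
    (fun l => (1 / Real.sqrt (1 + δ) : ℝ) • c' l)
    (fun l => smul_mem_cl _ ((hr l).symm ▸ smul_mem_cl r (hc l)))
    hclose' x hx (hdef.trans hκ)
    (fun i y hy => ⟨hcomm i y (Or.inl hy), hcomm i _ (Or.inr ⟨y, hy, rfl⟩)⟩)

/-- One accuracy. -/
theorem level [PartialOrder A] [StarOrderedRing A] [SeparableSpace A]
    (hω : (ω : Filter ℕ) ≤ cofinite) {K : ℝ} (hK : 0 ≤ K)
    (hrand : ∀ (m M : ℕ) (a : Fin m → A) (ε : ℝ), 0 < M → 0 < ε → (M : ℝ) * ε ≤ 1 →
      ‖∑ i, star (a i) * a i‖ ≤ 1 → ‖∑ i, a i * star (a i)‖ ≤ ε →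
      ∃ (N : ℕ) (Y : Fin m → CStarMatrix (Fin (M * N)) (Fin (M * N)) ℂ), 0 < N ∧
        (∀ i, ∀ p p' : Fin (M * N), N ≤ (p : ℕ) → Y i p p' = 0) ∧
        (∀ i, ‖Y i‖ ≤ K * Real.sqrt M) ∧
        ‖star (rowMat a Y) * rowMat a Y - diagMat (∑ i, star (a i) * a i)‖ ≤
          K * Real.sqrt ((M : ℝ) * ε))
    (hdrop : ∀ (L : ℕ) [NeZero L], 2 ≤ L → Nonempty (DropDataN L (FA A ω)))
    {θ : ℝ} (hθ : 0 < θ) {a : ℝ} (ha : 0 < a) (ha1 : a ≤ 1) (haK : K * Real.sqrt a ≤ θ / 4)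
    {s : Set (FA A ω)} (hs : s.Countable) (z : Cl s) (hz : PosIn (Cl s) (z : FA A ω))
    (hz1 : SqLe (z : FA A ω) 1) {ε : ℝ} (hε : 0 ≤ ε)
    (hτ : ∀ τ : Cl s →ₗ[ℂ] ℂ, IsTrace (Cl s) τ → (τ z).re ≤ ε)
    {t : Set (FA A ω)} (ht : t.Countable) (hst : CommSets s t) {ε' : ℝ} (hεε' : ε < ε') :
    ∃ q : Set (FA A ω), q.Countable ∧ s ⊆ q ∧ CommSets q t ∧
      ∀ d : Dim (Cl q), d.d (cut θ (z : FA A ω)) ≤ 4 / a * ε' := by
  have hε'0 : 0 < ε' := hε.trans_lt hεε'
  rcases lt_or_ge (a / ε') 2 with hsmall | hbig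
  · refine ⟨s, hs, subset_rfl, hst, fun d => (d.le_one (Dim.cut_posIn hz θ)).trans ?_⟩
    rw [div_lt_iff₀ hε'0] at hsmall
    rw [div_mul_eq_mul_div, le_div_iff₀ ha]
    linarith
  obtain ⟨M, hMdef⟩ : ∃ M : ℕ, M = ⌊a / ε'⌋₊ := ⟨_, rfl⟩
  have hM : 2 ≤ M := hMdef ▸ Nat.le_floor (by exact_mod_cast hbig)
  have hMr : (M : ℝ) * ε' ≤ a := by
    rw [← le_div_iff₀ hε'0, hMdef]; exact Nat.floor_le (by positivity)
  have hκ : K * Real.sqrt ((M : ℝ) * ε') ≤ θ / 4 :=
    (mul_le_mul_of_nonneg_left (Real.sqrt_le_sqrt hMr) hK).trans haK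
  obtain ⟨q, hq1, hq2, hq3, hq4⟩ := level_main hω hK hrand hdrop hθ hM hε'0 (hMr.trans ha1) hκ hs z
    hz hz1 hε hτ (lt_min (sub_pos.2 hεε') (show (0 : ℝ) < θ / 16 by linarith))
    (le_sub_iff_add_le'.1 (min_le_left _ _)) (min_le_right _ _)
    (show (0 : ℝ) < θ / 16 by linarith) le_rfl ht hst
  refine ⟨q, hq1, hq2, hq3, fun d => (hq4 d).trans ?_⟩
  have hMbig : a / ε' / 2 ≤ (M : ℝ) := by
    have := Nat.lt_floor_add_one (a / ε')
    rw [← hMdef] at this
    have h2 : (2 : ℝ) ≤ M := by exact_mod_cast hM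
    linarith
  calc (2 : ℝ) / M ≤ 2 / (a / ε' / 2) := div_le_div_of_nonneg_left (by norm_num) (by positivity) hMbig
    _ = 4 / a * ε' := by field_simp; ring

/-- Nuclearity gives `TraceDim`, given random rows and copies in `F_ω(A)`. -/
theorem traceDimFA_of_copies (h : RandomRowTarget)
    (hcopies : ∀ (A : Type) [NonUnitalCStarAlgebra A] [SeparableSpace A] (ω : Ultrafilter ℕ),
      (ω : Filter ℕ) ≤ Filter.cofinite → HasCopies (FA A ω)) :
    TraceDimFATarget := by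
  intro A _ _ ω hω hcpap hnc θ hθ
  letI := CStarAlgebra.spectralOrder A
  haveI := CStarAlgebra.spectralOrderedRing A
  obtain ⟨K, hK, hrand⟩ := h
  set a : ℝ := min 1 ((θ / (4 * (K + 1))) ^ 2)
  have ha : 0 < a := lt_min one_pos (by positivity)
  have haK : K * Real.sqrt a ≤ θ / 4 := by
    have h1 : Real.sqrt a ≤ θ / (4 * (K + 1)) :=
      (Real.sqrt_le_sqrt (min_le_right _ _)).trans_eq (Real.sqrt_sq (by positivity))
    refine (mul_le_mul_of_nonneg_left h1 hK).trans ?_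
    rw [mul_div_assoc', div_le_div_iff₀ (by positivity) (by norm_num)]
    nlinarith
  refine ⟨4 / a, by positivity, fun s hs z hz0 hz1 ε hε hτ t ht hst => ?_⟩
  have hz : PosIn (Cl s) (z : FA A ω) := posIn_of_sqLe hz0
  choose q hq1 hq2 hq3 hq4 using fun n : ℕ => level hω hK (hrand A hcpap)
    (fun L _ hL => allDrops_of (FA A ω) (hcopies A ω hω) hnc L hL) hθ ha (min_le_left _ _) haK
    hs z hz hz1 hε hτ ht hst (show ε < ε + 1 / ((n : ℝ) + 1) from lt_add_of_pos_right ε (by positivity))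
  refine ⟨⋃ n, q n, Set.countable_iUnion hq1, (hq2 0).trans (Set.subset_iUnion q 0), ?_,
    (Dim.cut_posIn hz θ).mono (StarSubalgebra.topologicalClosure_mono
      (StarAlgebra.adjoin_mono ((hq2 0).trans (Set.subset_iUnion q 0)))), fun d => ?_⟩
  · intro x hx y hy
    obtain ⟨n, hn⟩ := Set.mem_iUnion.1 hx
    exact hq3 n x hn y hy
  · exact le_of_forall_level fun n => hq4 n (d.restrict (StarSubalgebra.topologicalClosure_mono
      (StarAlgebra.adjoin_mono (Set.subset_iUnion q n))))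

end

end Vale.Agent.P095.All.TraceDim
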