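import Mathlib
import Vale.Agent.P101.KR.PowerDefs

/-!
# P095, traces to states: matrices with entries commuting with an order zero map

`phi P T = ∑ P a b * T a b`. It multiplies up to the image `D` of one, and is bounded by the norm of
the matrix.
-/

namespace Vale.Agent.P095.All.TraceDim

open scoped CStarAlgebra ComplexOrder
open Vale.Agent.P101.KR

noncomputable section

variable {B : Type*} [CStarAlgebra B] {L : ℕ} {P : Fin L → Fin L → B}

/-- `∑ P a b * T a b`. -/
def phi (P : Fin L → Fin L → B) (T : Fin L → Fin L → B) : B := ∑ a, ∑ b, P a b * T a b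

/-- The commutant of the order zero map. -/
def comm (P : Fin L → Fin L → B) : StarSubalgebra ℂ B :=
  StarSubalgebra.centralizer ℂ (Set.range fun p : Fin L × Fin L => P p.1 p.2)

instance isClosed_comm (P : Fin L → Fin L → B) : IsClosed (comm P : Set B) := by
  rw [comm, StarSubalgebra.coe_centralizer]
  exact Set.isClosed_centralizer _

theorem mem_comm {x : B} (hP : OrderZeroN P) : x ∈ comm P ↔ ∀ a b, Commute (P a b) x := by
  rw [comm, StarSubalgebra.mem_centralizer_iff]
  refine ⟨fun h a b => (h _ ⟨(a, b), rfl⟩).1, ?_⟩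
  rintro h g ⟨⟨a, b⟩, rfl⟩
  exact ⟨h a b, by rw [hP.star_eq]; exact h b a⟩

theorem diag_comm (hP : OrderZeroN P) (a b : Fin L) : Commute (diagN P) (P a b) := by
  show diagN P * P a b = P a b * diagN P
  conv_rhs => rw [diagN, Finset.mul_sum]
  simp only [hP.mul_eq]
  rw [Finset.sum_ite_eq, if_pos (Finset.mem_univ b)]

theorem phi_star (hP : OrderZeroN P) {T : Fin L → Fin L → B} (hT : ∀ a b, T a b ∈ comm P) :
    star (phi P T) = phi P (fun a b => star (T b a)) := by
  simp only [phi, star_sum, star_mul, hP.star_eq]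
  rw [Finset.sum_comm]
  refine Finset.sum_congr rfl fun a _ => Finset.sum_congr rfl fun b _ => ?_
  exact ((mem_comm hP).1 (star_mem (hT b a)) a b).eq.symm

theorem phi_mul (hP : OrderZeroN P) {T U : Fin L → Fin L → B} (hT : ∀ a b, T a b ∈ comm P) :
    phi P T * phi P U = diagN P * phi P (fun a d => ∑ b, T a b * U b d) := by
  have key : ∀ a b c d, P a b * T a b * (P c d * U c d)
      = if b = c then diagN P * (P a d * (T a b * U c d)) else 0 := fun a b c d => by
    rw [show P a b * T a b * (P c d * U c d) = P a b * (T a b * P c d) * U c d by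
        simp only [mul_assoc], ← ((mem_comm hP).1 (hT a b) c d).eq,
      ← mul_assoc (P a b), hP.mul_eq]
    split_ifs <;> simp [mul_assoc]
  calc phi P T * phi P U
      = ∑ a, ∑ b, ∑ c, ∑ d, P a b * T a b * (P c d * U c d) := by
        simp only [phi, Finset.sum_mul, Finset.mul_sum]
        rw [Finset.sum_comm]
        conv_lhs => enter [2, c]; rw [Finset.sum_comm]; enter [2, a]; rw [Finset.sum_comm]
        rw [Finset.sum_comm]
        refine Finset.sum_congr rfl fun a _ => ?_
        rw [Finset.sum_comm]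
        refine Finset.sum_congr rfl fun b _ => ?_
        rw [Finset.sum_comm]
    _ = ∑ a, ∑ b, ∑ d, diagN P * (P a d * (T a b * U b d)) := by
        refine Finset.sum_congr rfl fun a _ => Finset.sum_congr rfl fun b _ => ?_
        rw [Finset.sum_comm]
        refine Finset.sum_congr rfl fun d _ => ?_
        simp only [key]
        rw [Finset.sum_ite_eq, if_pos (Finset.mem_univ b)]
    _ = _ := by
        simp only [phi, Finset.mul_sum]
        exact Finset.sum_congr rfl fun a _ => Finset.sum_comm

theorem exists_gap {A : Type*} [CStarAlgebra A] [PartialOrder A] [StarOrderedRing A] {b : A}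
    (hb : IsSelfAdjoint b) {r : ℝ} (h : ‖b‖ ≤ r) :
    ∃ c, algebraMap ℝ A r - b = star c * c :=
  CStarAlgebra.nonneg_iff_eq_star_mul_self.1 (sub_nonneg.2 (hb.le_algebraMap_norm_self.trans (by
    rw [Algebra.algebraMap_eq_smul_one, Algebra.algebraMap_eq_smul_one]
    exact smul_le_smul_of_nonneg_right h zero_le_one)))

variable [PartialOrder B] [StarOrderedRing B]

/-- The main estimate. -/
theorem psi_bound (hP : OrderZeroN P) (hD : ‖diagN P‖ ≤ 1) {A : Type*} [NonUnitalCStarAlgebra A]
    [PartialOrder A] [StarOrderedRing A] (ι : A →⋆ₙₐ[ℂ] B) (hι : ∀ x, ι x ∈ comm P)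
    (S : CStarMatrix (Fin L) (Fin L) A) (z : A) (hz : IsSelfAdjoint z) {κ : ℝ}
    (h : ‖star S * S - CStarMatrix.ofMatrix (Matrix.diagonal fun _ => z)‖ ≤ κ) :
    ‖star (phi P fun a b => ι (S a b)) * phi P (fun a b => ι (S a b))
      - diagN P * diagN P * ι z‖ ≤ κ := by
  classical
  have hκ : 0 ≤ κ := (norm_nonneg _).trans h
  set K := comm P
  letI := CStarAlgebra.spectralOrder K
  haveI := CStarAlgebra.spectralOrderedRing K
  set E := star S * S - CStarMatrix.ofMatrix (Matrix.diagonal fun _ => z)
  let j : A →⋆ₙₐ[ℂ] K :=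
    { toFun := fun x => ⟨ι x, hι x⟩
      map_smul' := fun r x => Subtype.ext (map_smul ι r x)
      map_zero' := Subtype.ext (map_zero ι)
      map_add' := fun x y => Subtype.ext (map_add ι x y)
      map_mul' := fun x y => Subtype.ext (map_mul ι x y)
      map_star' := fun x => Subtype.ext (map_star ι x) }
  set E' : CStarMatrix (Fin L) (Fin L) K := CStarMatrix.mapₙₐ j E with hE'
  have hnorm : ‖E'‖ ≤ κ := (NonUnitalStarAlgHom.norm_apply_le _ _).trans h
  have hEsa : IsSelfAdjoint E := by
    refine (IsSelfAdjoint.star_mul_self S).sub (CStarMatrix.ext fun a b => ?_)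
    rw [CStarMatrix.star_apply, CStarMatrix.ofMatrix_apply, CStarMatrix.ofMatrix_apply,
      Matrix.diagonal_apply, Matrix.diagonal_apply]
    rcases eq_or_ne a b with rfl | hab
    · simp [hz.star_eq]
    · simp [hab, hab.symm]
  have hE'sa : IsSelfAdjoint E' := hEsa.map _
  set T : Fin L → Fin L → B := fun a b => ι (S a b)
  have hT : ∀ a b, T a b ∈ K := fun a b => hι _
  set D := diagN P
  set X := star (phi P T) * phi P T - D * D * ι z
  -- positive matrices give positive elements
  have hpos : ∀ G : CStarMatrix (Fin L) (Fin L) K,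
      0 ≤ D * phi P (fun a b => ((star G * G) a b : B)) := by
    intro G
    have hG : ∀ a b, (G a b : B) ∈ K := fun a b => (G a b).2
    have e : star (phi P fun a b => (G a b : B)) * phi P (fun a b => (G a b : B))
        = D * phi P (fun a b => ((star G * G) a b : B)) := by
      rw [phi_star hP hG, phi_mul hP (fun a b => star_mem (hG b a))]
      congr 2
      funext a d
      simp [CStarMatrix.mul_apply, CStarMatrix.star_apply]
    exact e ▸ star_mul_self_nonneg _
  have hone : ∀ (x : B), phi P (fun a b => if a = b then x else 0) = D * x := fun x => by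
    simp [phi, D, diagN, Finset.sum_mul]
  have hX : X = D * phi P (fun a b => (E' a b : B)) := by
    simp only [X]
    rw [phi_star hP hT, phi_mul hP (fun a b => star_mem (hT b a)), mul_assoc D D, ← hone (ι z),
      ← mul_sub]
    congr 1
    simp only [phi, ← Finset.sum_sub_distrib, ← mul_sub]
    refine Finset.sum_congr rfl fun a _ => Finset.sum_congr rfl fun b _ => ?_
    congr 1
    rw [hE']
    simp only [CStarMatrix.mapₙₐ_apply, CStarMatrix.mapₗ_apply, CStarMatrix.map_apply]
    show _ = ι (E a b)
    rw [show E a b = (∑ c, star (S c a) * S c b) - if a = b then z else 0 by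
      simp [E, CStarMatrix.mul_apply, CStarMatrix.star_apply, Matrix.diagonal_apply]]
    rw [map_sub, map_sum]
    simp only [map_mul, map_star, T]
    split_ifs <;> simp
  have hD1 : ‖D * D‖ ≤ 1 := (norm_mul_le _ _).trans (mul_le_one₀ hD (norm_nonneg _) hD)
  -- both signs
  have hsign : ∀ Y : CStarMatrix (Fin L) (Fin L) K, IsSelfAdjoint Y → ‖Y‖ ≤ κ →
      D * phi P (fun a b => (Y a b : B)) ≤ algebraMap ℝ B κ := by
    intro Y hY hn
    obtain ⟨G, hG⟩ := exists_gap hY hn
    have h0 := hpos G
    rw [← hG] at h0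
    have e : (fun a b => (((algebraMap ℝ _ κ : CStarMatrix (Fin L) (Fin L) K) - Y) a b : B))
        = fun a b => (if a = b then algebraMap ℝ B κ else 0) - (Y a b : B) := by
      funext a b
      show (((algebraMap ℝ (CStarMatrix (Fin L) (Fin L) K) κ) a b - Y a b : K) : B) = _
      rw [CStarMatrix.algebraMap_apply]
      split_ifs <;> simp [Algebra.algebraMap_eq_smul_one]
    have h0' : 0 ≤ D * phi P (fun a b => (if a = b then algebraMap ℝ B κ else 0) - (Y a b : B)) :=
      h0.trans_eq (congrArg (fun f => D * phi P f) e)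
    clear h0
    rename' h0' => h0
    simp only [phi, mul_sub, Finset.sum_sub_distrib] at h0
    rw [show (∑ a, ∑ b, P a b * if a = b then algebraMap ℝ B κ else 0) = D * algebraMap ℝ B κ from
      hone _, sub_nonneg, ← mul_assoc] at h0
    refine h0.trans ?_
    rw [Algebra.algebraMap_eq_smul_one, mul_smul_comm, mul_one]
    refine smul_le_smul_of_nonneg_left ?_ hκ
    have hDD : 0 ≤ D * D := by
      have hDs : IsSelfAdjoint D := by
        show star (∑ a, P a a) = ∑ a, P a a
        simp [star_sum, hP.star_eq]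
      exact hDs.mul_self_nonneg
    exact (CStarAlgebra.norm_le_one_iff_of_nonneg _ hDD).1 hD1
  have h1 : X ≤ algebraMap ℝ B κ := hX ▸ hsign E' hE'sa hnorm
  have h2 : -X ≤ algebraMap ℝ B κ := by
    have h3 := hsign (-E') hE'sa.neg (by rwa [norm_neg])
    have e : D * phi P (fun a b => ((-E') a b : B)) = -X := by
      rw [hX, ← mul_neg]
      congr 1
      simp only [phi, ← Finset.sum_neg_distrib, ← mul_neg]
      rfl
    rwa [e] at h3
  have hXs : IsSelfAdjoint X := by
    refine (IsSelfAdjoint.star_mul_self _).sub ?_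
    have hDs : IsSelfAdjoint D := by
      show star (∑ a, P a a) = ∑ a, P a a
      simp [star_sum, hP.star_eq]
    have hc : Commute D (ι z) := Commute.sum_left _ _ _ fun a _ => (mem_comm hP).1 (hι z) a a
    show star (D * D * ι z) = D * D * ι z
    rw [star_mul, star_mul, hDs.star_eq, (hz.map ι).star_eq, (hc.mul_left hc).eq]
  have h3 : X * X ≤ algebraMap ℝ B (κ * κ) := by
    have hcm : Commute (algebraMap ℝ B κ - X) (algebraMap ℝ B κ + X) := by
      have hc := Algebra.commutes κ X
      simp only [Commute, SemiconjBy, mul_add, add_mul, mul_sub, sub_mul, hc]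
      abel
    have h5 : 0 ≤ algebraMap ℝ B κ + X := by
      have := sub_nonneg.2 h2
      rwa [sub_neg_eq_add] at this
    have := Commute.mul_nonneg (sub_nonneg.2 h1) h5 hcm
    rw [← sub_nonneg]
    refine this.trans_eq ?_
    have hc := Algebra.commutes κ X
    simp only [mul_add, sub_mul, map_mul, hc]
    abel
  have h4 : ‖X * X‖ ≤ κ * κ :=
    (CStarAlgebra.norm_le_iff_le_algebraMap _ (mul_nonneg hκ hκ) hXs.mul_self_nonneg).2 h3
  rw [hXs.norm_mul_self] at h4
  nlinarith [norm_nonneg X]

/-- Scalar matrices. -/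
theorem phi_scalar (hP : OrderZeroN P) (hD : ‖diagN P‖ ≤ 1)
    (Y : CStarMatrix (Fin L) (Fin L) ℂ) :
    ‖phi P (fun a b => algebraMap ℂ B (Y a b))‖ ≤ ‖Y‖ := by
  classical
  let ι : ℂ →⋆ₙₐ[ℂ] B := (StarAlgHom.ofId ℂ B).toNonUnitalStarAlgHom
  have := psi_bound hP hD ι (fun x => algebraMap_mem _ _) Y 0 (IsSelfAdjoint.zero ℂ)
    (κ := ‖star Y * Y‖) (by
      refine le_of_eq ?_
      congr 1
      rw [sub_eq_self]
      exact CStarMatrix.ext fun a b => by simp)
  have hY : ‖star Y * Y‖ = ‖Y‖ * ‖Y‖ := CStarRing.norm_star_mul_self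
  rw [hY] at this
  rw [map_zero, mul_zero, sub_zero, CStarRing.norm_star_mul_self] at this
  change ‖phi P fun a b => ι (Y a b)‖ ≤ _
  nlinarith [norm_nonneg Y, norm_nonneg (phi P fun a b => (ι (Y a b) : B))]

end

end Vale.Agent.P095.All.TraceDim
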